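import Vale.Agent.P284.H213.N.S
import Vale.Agent.P284.H988.N.DK
import Vale.Agent.P284.H988.N.Fol

/-!
# P284 (helper213), program N: group assembly

All objects are natural for the group `Γ` of the universal covering; no finite étale covering of `X`
has to belong to the class `D`.
-/

open scoped Manifold ContDiff Topology Pointwise ComplexConjugate ComplexOrder
open Filter Set Metric MeasureTheory

noncomputable section

namespace Vale.Agent.P284.H213.N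

open Vale.Agent.P272.K Vale.Agent.P284.H248 Vale.Agent.P284.H894 Vale.Agent.P284.H894.G
  Vale.Agent.P284.H894.V Vale.Agent.P284.H894.W Vale.Agent.P284.H894.F Vale.Agent.P284.H998
  Vale.Agent.P284.H213.Grp Vale.Agent.P284.H213.Q Vale.Agent.P284.H119.Kaz
  Vale.Agent.P284.H409.A Vale.Agent.P284.H913.Tube Vale.Agent.P284.H10 Vale.Agent.P284.H213.T3
  Vale.Agent.P284.H213.K Vale.Agent.P284.H213.G Vale.Agent.P284.H494.N

section
variable {n : ℕ} {X : Type} [TopologicalSpace X] [T2Space X] [CompactSpace X] [ConnectedSpace X]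
  [ChartedSpace (Cm n) X] [IsManifold 𝓘(ℂ, Cm n) ω X]

omit [T2Space X] [CompactSpace X] [ConnectedSpace X] [IsManifold 𝓘(ℂ, Cm n) ω X] in
/-- Descent of the affine data to a quotient of the group and of the torus. -/
theorem desc {w : Chart n X → Cm n → Matrix (Fin n) (Fin n) ℂ}
    {E Γ : Type} [TopologicalSpace E] [ConnectedSpace E] [Group Γ] [MulAction Γ E]
    {p : E → X} (hp : IsGalois Γ p) {G : Subgroup Γ} {N : ℕ} {A : Γ →* (Cm N ≃ₗ[ℂ] Cm N)}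
    {c : Γ → Cm N} (hD : ADat Γ G N A c) {F : E → Cm N} (hB : ∃ B, HolB p w F B)
    (heq : ∀ g y, F (g • y) = A g (F y) + c g) (hreg : ∃ y, Reg (n := n) p F y)
    (M : Subgroup Γ) [M.Normal] {q : ℕ} (L : Cm N →ₗ[ℂ] Cm q) (hL : Function.Surjective L)
    (A₁ : Γ ⧸ M →* (Cm q ≃ₗ[ℂ] Cm q)) (c₁ : Γ ⧸ M → Cm q)
    (hc₁ : ∀ g : Γ, c₁ (g : Γ ⧸ M) = L (c g))
    (hA₁ : ∀ (g : Γ) v, L (A g v) = A₁ (g : Γ ⧸ M) (L v)) :
    ∃ F₁ : H885.Quo E M → Cm q, (∃ B, HolB (H885.toX hp M) w F₁ B) ∧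
      (∀ g y, F₁ (g • y) = A₁ g (F₁ y) + c₁ g) ∧ ∃ y, Reg (n := n) (H885.toX hp M) F₁ y := by
  obtain ⟨B, hB⟩ := hB
  obtain ⟨y₀, hreg⟩ := hreg
  obtain ⟨B', hB'⟩ := HolB.linear hB L
  have hinv : ∀ m ∈ M, ∀ y, L (F (m • y)) = L (F y) := by
    intro m hm y
    have h1 : (m : Γ ⧸ M) = ((1 : Γ) : Γ ⧸ M) := by
      rw [QuotientGroup.eq]
      simpa using hm
    have h2 := hc₁ m
    rw [h1, hc₁ 1, hD.map_one, map_zero] at h2
    have h3 := hA₁ m (F y)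
    rw [h1, QuotientGroup.mk_one, map_one] at h3
    rw [heq, map_add, ← h2, add_zero, h3]
    rfl
  have hregL : Reg (n := n) p (fun y => L (F y)) y₀ := Reg.linear hp.cov hB L hL hreg
  refine ⟨H885.desc M (fun y => L (F y)) hinv, ⟨B', H885.holB_desc hp M hinv hB'⟩, ?_,
    H885.mk M y₀, (H885.reg_desc hp M hinv y₀).2 hregL⟩
  intro g y
  obtain ⟨g, rfl⟩ := QuotientGroup.mk_surjective g
  obtain ⟨y, rfl⟩ := H885.mk_surjective M y
  rw [H885.quo_smul_mk]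
  show L (F (g • y)) = A₁ (g : Γ ⧸ M) (L (F y)) + c₁ (g : Γ ⧸ M)
  rw [heq, map_add, hc₁, hA₁]

/-- The Albanese data, natural for `Γ`: the generic fibre is connected, the kernel is finitely
generated. -/
theorem prepN {D : Cls} (hA : AlbUK D) (hM : MFN D) (hD : D n X)
    {w : Chart n X → Cm n → Matrix (Fin n) (Fin n) ℂ} (hw : IsKahler w)
    {E Γ : Type} [TopologicalSpace E] [SimplyConnectedSpace E] [Group Γ] [MulAction Γ E]
    {p : E → X} (hp : IsGalois Γ p) :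
    ∃ (G K : Subgroup Γ) (N : ℕ) (F : E → Cm N) (A : Γ →* (Cm N ≃ₗ[ℂ] Cm N)) (c : Γ → Cm N),
      Alb p w G K F c ∧ ADat Γ G N A c ∧ (∀ g y, F (g • y) = A g (F y) + c g) ∧
      (∃ y, Reg (n := n) p F y) ∧ GenConn (n := n) p F ∧ Group.FG (K.subgroupOf G) ∧ N ≤ n := by
  obtain ⟨G₀, K₀, N, F, c₀, hAl₀, hreg⟩ := hA n X hD w hw E Γ p hp
  obtain ⟨G, K, A, c, -, -, hGn, hKn, hAl, heq, hA1, -, hcoc, -⟩ := H608.S.alb_normal hp hAl₀ hreg
  have hdat : ADat Γ G N A c := ⟨hGn, hAl.fi, hcoc, hA1, latChar_of_alb hAl⟩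
  have hgc := hM n X hD w hw E Γ p hp N F G A c hdat hAl.hol heq hreg
  refine ⟨G, K, N, F, A, c, hAl, hdat, heq, hreg, hgc, ?_, ?_⟩
  · obtain ⟨B, hB⟩ := hAl.hol
    obtain ⟨Y, _, _, _, _, _, _, pY, π, hπ, hπc, hpY, hπp⟩ :=
      H885.exists_quo n X E Γ p hp G hAl.fi
    have hequiv : ∀ (g : G) (y : E), F (g • y) = F y + c g := fun g y => hAl.equiv g g.2 y
    have hKmem : ∀ g : G, g ∈ K.subgroupOf G ↔ c g = 0 := fun g => by
      rw [Subgroup.mem_subgroupOf, hAl.mem]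
      exact ⟨fun h => h.2, fun h => ⟨g.2, h⟩⟩
    obtain ⟨T, hT, hTi, hTS⟩ := hgc
    obtain ⟨t, ht⟩ : ∃ t, t ∉ T := by
      by_contra hcon
      push Not at hcon
      have h1 : T = univ := eq_univ_of_forall hcon
      rw [h1, interior_univ] at hTi
      exact univ_nonempty.ne_empty hTi
    refine fg_of_conn n hpY (H221.holB_cont hp.cov hB) hequiv (latChar_of_alb hAl).disc
      (K.subgroupOf G) (fun k hk => (hKmem k).1 hk)
      ⟨{1}, finite_singleton _, fun g hg => ⟨1, rfl, ?_⟩⟩ (hTS t ht).1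
    rw [inv_one, one_mul]
    exact (hKmem g).2 hg
  · obtain ⟨B, hB⟩ := hAl.hol
    obtain ⟨y₀, hy₀⟩ := hreg
    exact le_of_reg hB hy₀

end

section grp
variable {Γ Q : Type} [Group Γ] [Group Q]

/-- the quotient by `K ⊓ ker f` -/
theorem quoN (f : Γ →* Q) {G K : Subgroup Γ} {N : ℕ} {A : Γ →* (Cm N ≃ₗ[ℂ] Cm N)} {c : Γ → Cm N}
    (hD : ADat Γ G N A c) (hK : ∀ g, g ∈ K ↔ g ∈ G ∧ c g = 0) :
    ∃ (M : Subgroup Γ) (_ : M.Normal) (A₀ : Γ ⧸ M →* (Cm N ≃ₗ[ℂ] Cm N)) (c₀ : Γ ⧸ M → Cm N),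
      M = K ⊓ f.ker ∧ (∀ g : Γ, c₀ (g : Γ ⧸ M) = c g) ∧ (∀ (g : Γ) v, A g v = A₀ (g : Γ ⧸ M) v) ∧
      ADat (Γ ⧸ M) (G.map (QuotientGroup.mk' M)) N A₀ c₀ ∧
      (∀ x, x ∈ K.map (QuotientGroup.mk' M) ↔ x ∈ G.map (QuotientGroup.mk' M) ∧ c₀ x = 0) ∧
      Nonempty (K.map (QuotientGroup.mk' M) ≃* K.map f) := by
  have hKn : K.Normal := hD.ker_normal hK
  have hMn : (K ⊓ f.ker).Normal := inferInstance
  have hKG : K ≤ G := fun g hg => ((hK g).1 hg).1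
  obtain ⟨A₀, c₀, hc₀, hA₀, hD₀⟩ := hD.quot (K ⊓ f.ker) (inf_le_left.trans hKG) LinearMap.id
    Function.surjective_id (fun g v hv => by
      rw [LinearMap.id_apply] at hv
      rw [hv, map_zero, map_zero]) hD.lat (fun m hm => ((hK m).1 hm.1).2)
  have hmk : ∀ (L : Subgroup Γ), K ⊓ f.ker ≤ L → ∀ g : Γ,
      (g : Γ ⧸ (K ⊓ f.ker)) ∈ L.map (QuotientGroup.mk' (K ⊓ f.ker)) ↔ g ∈ L := by
    intro L hL g
    constructor
    · rintro ⟨k, hk, hkg⟩
      have h1 : k⁻¹ * g ∈ K ⊓ f.ker := QuotientGroup.eq.1 hkg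
      have h2 := L.mul_mem hk (hL h1)
      rwa [mul_inv_cancel_left] at h2
    · intro hg
      exact ⟨g, hg, rfl⟩
  refine ⟨K ⊓ f.ker, hMn, A₀, c₀, rfl, hc₀, hA₀, hD₀, ?_, ?_⟩
  · intro x
    obtain ⟨g, rfl⟩ := QuotientGroup.mk_surjective x
    rw [hmk K inf_le_left, hmk G (inf_le_left.trans hKG), hc₀, hK]
    rfl
  · let φ : K →* Q := f.comp K.subtype
    let ψ : K →* Γ ⧸ (K ⊓ f.ker) := (QuotientGroup.mk' (K ⊓ f.ker)).comp K.subtype
    obtain ⟨e⟩ := range_equiv ψ φ (fun k => by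
      show ((k : Γ) : Γ ⧸ (K ⊓ f.ker)) = 1 ↔ f k = 1
      rw [QuotientGroup.eq_one_iff]
      exact ⟨fun h => h.2, fun h => ⟨k.2, h⟩⟩)
    have hφr : φ.range = K.map f := by
      show (f.comp K.subtype).range = K.map f
      rw [MonoidHom.range_comp, Subgroup.range_subtype]
    have hψr : ψ.range = K.map (QuotientGroup.mk' (K ⊓ f.ker)) := by
      show ((QuotientGroup.mk' (K ⊓ f.ker)).comp K.subtype).range = _
      rw [MonoidHom.range_comp, Subgroup.range_subtype]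
    exact ⟨(MulEquiv.subgroupCongr hψr.symm).trans (e.trans (MulEquiv.subgroupCongr hφr))⟩

/-- `NSRep` of the image of `G` in `Γ ⧸ (K ⊓ ker f)` gives `NSRep` of `Q` -/
theorem nsRep_quoN (f : Γ →* Q) (hf : Function.Surjective f) {G K : Subgroup Γ} {N : ℕ}
    {A : Γ →* (Cm N ≃ₗ[ℂ] Cm N)} {c : Γ → Cm N} (hD : ADat Γ G N A c)
    (hK : ∀ g, g ∈ K ↔ g ∈ G ∧ c g = 0) (M : Subgroup Γ) [M.Normal] (hM : M = K ⊓ f.ker)
    (h : NSRep (G.map (QuotientGroup.mk' M))) : NSRep Q := by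
  have hKG : K ≤ G := fun g hg => ((hK g).1 hg).1
  have hMG : M ≤ G := by rw [hM]; exact inf_le_left.trans hKG
  have hMn : (M.subgroupOf G).Normal := inferInstance
  have hlat := hD.lat
  refine nsRep_of_quo f hf G hD.fi (K.subgroupOf G) (M.subgroupOf G) (fun a x => ?_) ?_ ?_
  · have h1 := hlat.add (a * x * a⁻¹) x⁻¹
    rw [Subgroup.mem_subgroupOf, hK]
    refine ⟨(a * x * a⁻¹ * x⁻¹).2, ?_⟩
    rw [h1, hlat.conj, hlat.map_inv, add_neg_cancel]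
  · ext x
    rw [Subgroup.mem_subgroupOf, hM]
    rfl
  · let φ : G →* G.map (QuotientGroup.mk' M) := (QuotientGroup.mk' M).subgroupMap G
    have hφ : Function.Surjective φ := (QuotientGroup.mk' M).subgroupMap_surjective G
    have hle : M.subgroupOf G ≤ φ.ker := by
      intro m hm
      refine Subtype.ext ?_
      show ((m : Γ) : Γ ⧸ M) = 1
      exact (QuotientGroup.eq_one_iff _).2 hm
    refine NSRep.of_surjective (QuotientGroup.lift (M.subgroupOf G) φ hle) (fun y => ?_) h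
    obtain ⟨g, rfl⟩ := hφ y
    exact ⟨(g : G ⧸ M.subgroupOf G), QuotientGroup.lift_mk' _ hle g⟩

end grp

/-- the data to which the core is applied -/
theorem dataN {D : Cls} (hM : MFN D) {n : ℕ} {X : Type} [TopologicalSpace X] [T2Space X]
    [CompactSpace X] [ConnectedSpace X] [ChartedSpace (Cm n) X] [IsManifold 𝓘(ℂ, Cm n) ω X]
    (hDX : D n X) {w : Chart n X → Cm n → Matrix (Fin n) (Fin n) ℂ} (hw : IsKahler w)
    {E Γ : Type} [TopologicalSpace E] [ConnectedSpace E] [Group Γ] [MulAction Γ E]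
    {p : E → X} (hp : IsGalois Γ p) {Q : Type} [Group Q] (f : Γ →* Q)
    {G K : Subgroup Γ} {N : ℕ} {A : Γ →* (Cm N ≃ₗ[ℂ] Cm N)} {c : Γ → Cm N}
    (hD : ADat Γ G N A c) (hK : ∀ g, g ∈ K ↔ g ∈ G ∧ c g = 0) {F : E → Cm N}
    (hB : ∃ B, HolB p w F B) (heq : ∀ g y, F (g • y) = A g (F y) + c g)
    (hreg : ∃ y, Reg (n := n) p F y) (hfg : Group.FG (K.map f)) (hinf : Infinite (K.map f))
    (hnvi : ¬ VirtIndicable (K.map f)) :
    ∃ (M : Subgroup Γ) (_ : M.Normal) (M₂ : Subgroup (Γ ⧸ M)) (_ : M₂.Normal) (q : ℕ)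
      (A₂ : (Γ ⧸ M) ⧸ M₂ →* (Cm q ≃ₗ[ℂ] Cm q)) (c₂ : (Γ ⧸ M) ⧸ M₂ → Cm q) (E' : Type)
      (_ : TopologicalSpace E') (_ : ConnectedSpace E') (_ : MulAction ((Γ ⧸ M) ⧸ M₂) E')
      (p' : E' → X) (F' : E' → Cm q), M = K ⊓ f.ker ∧
      Nonempty (K.map (QuotientGroup.mk' M) ≃* K.map f) ∧ IsGalois ((Γ ⧸ M) ⧸ M₂) p' ∧
      (∃ B, HolB p' w F' B) ∧ (∀ g y, F' (g • y) = A₂ g (F' y) + c₂ g) ∧
      (∃ y, Reg (n := n) p' F' y) ∧ GenConn (n := n) p' F' ∧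
      NPkgA ((Γ ⧸ M) ⧸ M₂) ((G.map (QuotientGroup.mk' M)).map (QuotientGroup.mk' M₂)) q A₂ c₂
        ((K.map (QuotientGroup.mk' M)).map (QuotientGroup.mk' M₂)) := by
  obtain ⟨M, hMn, A₀, c₀, hMe, hc₀, hA₀, hD₀, hK₀, ⟨e⟩⟩ := quoN f hD hK
  obtain ⟨F₁, hB₁, heq₁, hreg₁⟩ := desc hp hD hB heq hreg M LinearMap.id Function.surjective_id
    A₀ c₀ hc₀ (fun g v => hA₀ g v)
  obtain ⟨M₂, hM₂n, q, L, A₂, c₂, hMG, hL, hc₂, hA₂, hN⟩ := normN hD₀
    (K.map (QuotientGroup.mk' M)) hK₀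
    (Group.fg_of_surjective (f := e.symm.toMonoidHom) e.symm.surjective)
    (Infinite.of_injective e.symm e.symm.injective)
    (fun h => hnvi (H465.V19.virtIndicable_of_equiv e h))
  have hp₁ := H885.isGalois_toX hp M
  have hcon₁ : ConnectedSpace (H885.Quo E M) := H885.connected_quo M
  obtain ⟨F₂, hB₂, heq₂, hreg₂⟩ := desc hp₁ hD₀ hB₁ heq₁ hreg₁ M₂ L hL A₂ c₂ hc₂ hA₂
  have hp₂ := H885.isGalois_toX hp₁ M₂
  have hcon₂ : ConnectedSpace (H885.Quo (H885.Quo E M) M₂) := H885.connected_quo M₂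
  have hgc₂ := hM n X hDX w hw _ _ _ hp₂ q F₂ _ A₂ c₂ hN.dat hB₂ heq₂ hreg₂
  exact ⟨M, hMn, M₂, hM₂n, q, A₂, c₂, H885.Quo (H885.Quo E M) M₂, _, hcon₂, _, _, F₂, hMe, ⟨e⟩,
    hp₂, hB₂, heq₂, hreg₂, hgc₂, hN⟩

/-- `FinRepIn` from a subgroup -/
theorem finRepIn_sub {Γ : Type} [Group Γ] {G K : Subgroup Γ} (hKG : K ≤ G)
    (h : FinRepIn G (K.subgroupOf G)) : FinRepIn Γ K := by
  intro V _ _ _ ρ
  refine (h V (ρ.comp G.subtype)).subset ?_
  rintro _ ⟨k, hk, rfl⟩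
  exact ⟨⟨k, hKG hk⟩, hk, rfl⟩

/-- `FinRepIn` from the absence of `NSRep` of the quotient `Q` -/
theorem finRepIn_quo {Γ Q : Type} [Group Γ] [Group Q] (f : Γ →* Q) (hf : Function.Surjective f)
    {G K : Subgroup Γ} {N : ℕ} {A : Γ →* (Cm N ≃ₗ[ℂ] Cm N)} {c : Γ → Cm N}
    (hD : ADat Γ G N A c) (hK : ∀ g, g ∈ K ↔ g ∈ G ∧ c g = 0) (hns : ¬ NSRep Q) (M : Subgroup Γ)
    [M.Normal] (hM : M = K ⊓ f.ker) (hfg : Group.FG (K.map (QuotientGroup.mk' M)))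
    (hnvi : ¬ VirtIndicable (K.map (QuotientGroup.mk' M))) :
    FinRepIn (Γ ⧸ M) (K.map (QuotientGroup.mk' M)) := by
  have hKG : K ≤ G := fun g hg => ((hK g).1 hg).1
  have hle : K.map (QuotientGroup.mk' M) ≤ G.map (QuotientGroup.mk' M) := Subgroup.map_mono hKG
  refine finRepIn_sub hle (finRepIn_of ?_ ?_ fun h => hns (nsRep_quoN f hf hD hK M hM h))
  · exact Group.fg_of_surjective (f := (Subgroup.subgroupOfEquivOfLe hle).symm.toMonoidHom)
      (Subgroup.subgroupOfEquivOfLe hle).symm.surjective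
  · exact fun h => hnvi (H465.V19.virtIndicable_of_equiv (Subgroup.subgroupOfEquivOfLe hle) h)

section
variable {Γ Q : Type} [Group Γ] [Group Q] {G K : Subgroup Γ}

/-- the homomorphism `θ` of `t3N_of_image` -/
theorem theta_map (hKG : K ≤ G) (M : Subgroup Γ) [M.Normal] (M₂ : Subgroup (Γ ⧸ M)) [M₂.Normal] :
    (K.subgroupOf G).map (((QuotientGroup.mk' M₂).comp (QuotientGroup.mk' M)).comp G.subtype) =
      (K.map (QuotientGroup.mk' M)).map (QuotientGroup.mk' M₂) := by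
  rw [← Subgroup.map_map, Subgroup.subgroupOf_map_subtype, inf_eq_left.2 hKG, ← Subgroup.map_map]

theorem theta_one (f : Γ →* Q) (M : Subgroup Γ) [M.Normal] (hM : M = K ⊓ f.ker)
    (M₂ : Subgroup (Γ ⧸ M)) [M₂.Normal] (k : G) (hk : (k : Γ) ∈ K) (hfk : f k = 1) :
    ((QuotientGroup.mk' M₂).comp (QuotientGroup.mk' M)).comp G.subtype k = 1 := by
  have h1 : (k : Γ) ∈ M := by
    rw [hM]
    exact ⟨hk, hfk⟩
  have h2 : ((k : Γ) : Γ ⧸ M) = 1 := (QuotientGroup.eq_one_iff _).2 h1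
  show ((((k : Γ) : Γ ⧸ M)) : (Γ ⧸ M) ⧸ M₂) = 1
  rw [h2]
  rfl

end

/-- **N-assembly, T3.** -/
theorem mainSCNN_of {D : Cls} (hA : AlbUK D) (hM : MFN D) (hCo : CoreTN D) : MainSCK D PN := by
  intro n X _ _ _ _ _ _ hDX w hw E Γ _ _ _ _ p hp Q _ f hf
  obtain ⟨_, _, _, hfg, -⟩ := H639.V.v15Stmt n X w hw E Γ p hp
  obtain ⟨G, K, N, F, A, c, hAl, hD, heq, hreg, hgc, hKfgG, hNn⟩ := prepN hA hM hDX hw hp
  have hadd := alb_add hAl
  have hKG : K ≤ G := fun g hg => ((hAl.mem g).1 hg).1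
  have hKfg : Group.FG K := Group.fg_of_surjective
    (f := (Subgroup.subgroupOfEquivOfLe hKG).toMonoidHom) (Subgroup.subgroupOfEquivOfLe hKG).surjective
  have hKffg : Group.FG (K.map f) :=
    Group.fg_of_surjective (f := f.subgroupMap K) (f.subgroupMap_surjective K)
  refine T3N.mono (r := 2 * N) ?_ (Nat.mul_le_mul_left 2 hNn)
  refine t3N_of_image f hf G K hAl.fi c hadd hAl.mem hAl.disc hAl.span hKffg ?_
  by_contra hcase
  push Not at hcase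
  obtain ⟨hinf, hnk, hns⟩ := hcase
  have hnvi : ¬ VirtIndicable (K.map f) := fun hv => end_of_reg hw hp hAl hreg
    (grpAStmt Γ Q f hf hfg G K hAl.fi N c hadd hAl.mem hAl.disc hAl.span hKffg hv
      (uni_of_conn hw hp hAl hgc))
  have hfr : H573.DK.FinRep (K.map f) := finRep_of_not_nsRep hKffg hnvi hns
  obtain ⟨M, hMn, M₂, hM₂n, q, A₂, c₂, E', _, _, _, p', F', hMe, ⟨e⟩, hp', hB', heq', hreg', hgc',
    hN⟩ := dataN hM hDX hw hp f hD hAl.mem hAl.hol heq hreg hKffg hinf hnvi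
  have hθ := theta_map hKG M M₂
  refine hCo n X hDX w hw E' _ p' hp' q F' _ _ A₂ c₂ hB' heq' hreg' hgc' hN ?_ ?_
  · exact finRep_of_surjective ((QuotientGroup.mk' M₂).subgroupMap (K.map (QuotientGroup.mk' M)))
      ((QuotientGroup.mk' M₂).subgroupMap_surjective _) (finRep_equiv e hfr)
  · rw [← hθ]
    refine hnk _ inferInstance _ (fun k hk hfk => theta_one f M hMe M₂ k hk hfk) ?_
    rw [hθ]
    exact hN.inf

/-- **N-assembly, T3G.** -/
theorem mainSCNGN_of {D : Cls} (hA : AlbUK D) (hM : MFN D) (hCo : CoreTGN D) : MainSCK D PNG := by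
  intro n X _ _ _ _ _ _ hDX w hw E Γ _ _ _ _ p hp Q _ f hf
  obtain ⟨_, _, _, hfg, -⟩ := H639.V.v15Stmt n X w hw E Γ p hp
  obtain ⟨G, K, N, F, A, c, hAl, hD, heq, hreg, hgc, hKfgG, hNn⟩ := prepN hA hM hDX hw hp
  have hadd := alb_add hAl
  have hKG : K ≤ G := fun g hg => ((hAl.mem g).1 hg).1
  have hKfg : Group.FG K := Group.fg_of_surjective
    (f := (Subgroup.subgroupOfEquivOfLe hKG).toMonoidHom) (Subgroup.subgroupOfEquivOfLe hKG).surjective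
  have hKffg : Group.FG (K.map f) :=
    Group.fg_of_surjective (f := f.subgroupMap K) (f.subgroupMap_surjective K)
  by_cases hns : NSRep Q
  · exact Or.inl hns
  refine Or.inr (T3N0.mono (r := 2 * N) ?_ (Nat.mul_le_mul_left 2 hNn))
  refine t3N0_of_image f hf G K hAl.fi c hadd hAl.mem hAl.disc hAl.span hKffg ?_
  by_contra hcase
  push Not at hcase
  obtain ⟨hinf, hnk⟩ := hcase
  have hnvi : ¬ VirtIndicable (K.map f) := fun hv => end_of_reg hw hp hAl hreg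
    (grpAStmt Γ Q f hf hfg G K hAl.fi N c hadd hAl.mem hAl.disc hAl.span hKffg hv
      (uni_of_conn hw hp hAl hgc))
  obtain ⟨M, hMn, M₂, hM₂n, q, A₂, c₂, E', _, _, _, p', F', hMe, ⟨e⟩, hp', hB', heq', hreg', hgc',
    hN⟩ := dataN hM hDX hw hp f hD hAl.mem hAl.hol heq hreg hKffg hinf hnvi
  have hθ := theta_map hKG M M₂
  refine hCo n X hDX w hw E' _ p' hp' q F' _ _ A₂ c₂ hB' heq' hreg' hgc' hN ?_ ?_
  · exact (finRepIn_quo f hf hD hAl.mem hns M hMe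
      (Group.fg_of_surjective (f := e.symm.toMonoidHom) e.symm.surjective)
      (fun h => hnvi (H465.V19.virtIndicable_of_equiv e h))).of_quotient _
  · rw [← hθ]
    refine hnk _ inferInstance _ (fun k hk hfk => theta_one f M hMe M₂ k hk hfk) ?_
    rw [hθ]
    exact hN.inf

/-- **N-assembly, amenable quotients.** -/
theorem mainSCQN_of {D : Cls} (hA : AlbUK D) (hM : MFN D) (hCo : CoreTN D) : MainSCK D PQ := by
  intro n X _ _ _ _ _ _ hDX w hw E Γ _ _ _ _ p hp Q _ f hf hQ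
  obtain ⟨_, _, _, hfg, -⟩ := H639.V.v15Stmt n X w hw E Γ p hp
  obtain ⟨G, K, N, F, A, c, hAl, hD, heq, hreg, hgc, hKfgG, hNn⟩ := prepN hA hM hDX hw hp
  have hadd := alb_add hAl
  have hKG : K ≤ G := fun g hg => ((hAl.mem g).1 hg).1
  have hKfg : Group.FG K := Group.fg_of_surjective
    (f := (Subgroup.subgroupOfEquivOfLe hKG).toMonoidHom) (Subgroup.subgroupOfEquivOfLe hKG).surjective
  have hKffg : Group.FG (K.map f) :=
    Group.fg_of_surjective (f := f.subgroupMap K) (f.subgroupMap_surjective K)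
  by_cases hK : Finite (K.map f)
  · exact (finR f hf hfg G K hAl.fi N c hadd hAl.mem hAl.disc hAl.span hK).mono
      (Nat.mul_le_mul_left 2 hNn)
  exfalso
  rw [not_finite_iff_infinite] at hK
  have hnvi : ¬ VirtIndicable (K.map f) := fun hv => end_of_reg hw hp hAl hreg
    (grpAStmt Γ Q f hf hfg G K hAl.fi N c hadd hAl.mem hAl.disc hAl.span hKffg hv
      (uni_of_conn hw hp hAl hgc))
  obtain ⟨M, hMn, M₂, hM₂n, q, A₂, c₂, E', _, _, _, p', F', hMe, ⟨e⟩, hp', hB', heq', hreg', hgc',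
    hN⟩ := dataN hM hDX hw hp f hD hAl.mem hAl.hol heq hreg hKffg hK hnvi
  have hKfF : Folner (K.map f) := H446.QC.folner_subgroup hQ _
  have hK₁F : Folner (K.map (QuotientGroup.mk' M)) := H465.V19.folner_of_equiv e.symm hKfF
  have hK₂F : Folner ((K.map (QuotientGroup.mk' M)).map (QuotientGroup.mk' M₂)) :=
    folner_of_surjective _ ((QuotientGroup.mk' M₂).subgroupMap_surjective _) hK₁F
  have := hN.inf
  exact hCo n X hDX w hw E' _ p' hp' q F' _ _ A₂ c₂ hB' heq' hreg' hgc' hN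
    (H573.DK.finRep_of hN.fg hK₂F hN.nvi) (H988.N.not_kazhdan_of_folner hK₂F)

/-- the data for the strong forms -/
theorem dataTN {D : Cls} (hM : MFN D) {n : ℕ} {X : Type} [TopologicalSpace X] [T2Space X]
    [CompactSpace X] [ConnectedSpace X] [ChartedSpace (Cm n) X] [IsManifold 𝓘(ℂ, Cm n) ω X]
    (hDX : D n X) {w : Chart n X → Cm n → Matrix (Fin n) (Fin n) ℂ} (hw : IsKahler w)
    {E Γ : Type} [TopologicalSpace E] [ConnectedSpace E] [Group Γ] [MulAction Γ E]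
    {p : E → X} (hp : IsGalois Γ p) {Q : Type} [Group Q] (f : Γ →* Q)
    {G K : Subgroup Γ} {N : ℕ} {A : Γ →* (Cm N ≃ₗ[ℂ] Cm N)} {c : Γ → Cm N}
    (hD : ADat Γ G N A c) (hK : ∀ g, g ∈ K ↔ g ∈ G ∧ c g = 0) {F : E → Cm N}
    (hB : ∃ B, HolB p w F B) (heq : ∀ g y, F (g • y) = A g (F y) + c g)
    (hreg : ∃ y, Reg (n := n) p F y) :
    ∃ (M : Subgroup Γ) (_ : M.Normal)
      (A₁ : Γ ⧸ M →* (Cm N ≃ₗ[ℂ] Cm N)) (c₁ : Γ ⧸ M → Cm N) (E' : Type)
      (_ : TopologicalSpace E') (_ : ConnectedSpace E') (_ : MulAction (Γ ⧸ M) E')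
      (p' : E' → X) (F' : E' → Cm N), M = K ⊓ f.ker ∧
      Nonempty (K.map (QuotientGroup.mk' M) ≃* K.map f) ∧ IsGalois (Γ ⧸ M) p' ∧
      (∃ B, HolB p' w F' B) ∧ (∀ g y, F' (g • y) = A₁ g (F' y) + c₁ g) ∧
      (∃ y, Reg (n := n) p' F' y) ∧ GenConn (n := n) p' F' ∧
      ADat (Γ ⧸ M) (G.map (QuotientGroup.mk' M)) N A₁ c₁ ∧
      ∀ g, g ∈ K.map (QuotientGroup.mk' M) ↔ g ∈ G.map (QuotientGroup.mk' M) ∧ c₁ g = 0 := by
  obtain ⟨M, hMn, A₀, c₀, hMe, hc₀, hA₀, hD₀, hK₀, ⟨e⟩⟩ := quoN f hD hK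
  obtain ⟨F₁, hB₁, heq₁, hreg₁⟩ := desc hp hD hB heq hreg M LinearMap.id Function.surjective_id
    A₀ c₀ hc₀ (fun g v => hA₀ g v)
  have hp₁ := H885.isGalois_toX hp M
  have hcon₁ : ConnectedSpace (H885.Quo E M) := H885.connected_quo M
  have hgc₁ := hM n X hDX w hw _ _ _ hp₁ N F₁ _ A₀ c₀ hD₀ hB₁ heq₁ hreg₁
  exact ⟨M, hMn, A₀, c₀, H885.Quo E M, _, hcon₁, _, _, F₁, hMe, ⟨e⟩,
    hp₁, hB₁, heq₁, hreg₁, hgc₁, hD₀, hK₀⟩

/-- **N-assembly, T3⁺.** -/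
theorem mainSCTN_of {D : Cls} (hA : AlbUK D) (hM : MFN D) (hCo : CoreTPN D) : MainSCK D PT := by
  intro n X _ _ _ _ _ _ hDX w hw E Γ _ _ _ _ p hp Q _ f hf
  obtain ⟨_, _, _, hfg, -⟩ := H639.V.v15Stmt n X w hw E Γ p hp
  obtain ⟨G, K, N, F, A, c, hAl, hD, heq, hreg, hgc, hKfgG, hNn⟩ := prepN hA hM hDX hw hp
  have hadd := alb_add hAl
  have hKG : K ≤ G := fun g hg => ((hAl.mem g).1 hg).1
  have hKfg : Group.FG K := Group.fg_of_surjective
    (f := (Subgroup.subgroupOfEquivOfLe hKG).toMonoidHom) (Subgroup.subgroupOfEquivOfLe hKG).surjective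
  have hKffg : Group.FG (K.map f) :=
    Group.fg_of_surjective (f := f.subgroupMap K) (f.subgroupMap_surjective K)
  by_cases hcase : Kazhdan (K.map f) ∨ NSRep (K.map f)
  · exact (t3C_of_image f hf G K hAl.fi c hadd hAl.mem hAl.disc hAl.span hKffg hcase).mono
      (Nat.mul_le_mul_left 2 hNn)
  exfalso
  push Not at hcase
  obtain ⟨hnk, hns⟩ := hcase
  have hnvi : ¬ VirtIndicable (K.map f) := fun hv => end_of_reg hw hp hAl hreg
    (grpAStmt Γ Q f hf hfg G K hAl.fi N c hadd hAl.mem hAl.disc hAl.span hKffg hv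
      (uni_of_conn hw hp hAl hgc))
  have hfr : H573.DK.FinRep (K.map f) := finRep_of_not_nsRep hKffg hnvi hns
  obtain ⟨M, hMn, A₁, c₁, E', _, _, _, p', F', hMe, ⟨e⟩, hp', hB', heq', hreg', hgc', hD', hK'⟩ :=
    dataTN hM hDX hw hp f hD hAl.mem hAl.hol heq hreg
  exact hCo n X hDX w hw E' _ p' hp' N F' _ _ A₁ c₁ hB' heq' hreg' hgc' hD' hK'
    (Group.fg_of_surjective (f := e.symm.toMonoidHom) e.symm.surjective)
    (fun h => hnvi (H465.V19.virtIndicable_of_equiv e h)) (finRep_equiv e hfr)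
    (fun h => hnk (h.of_equiv e))

/-- **N-assembly, T3⁺G.** -/
theorem mainSCTGN_of {D : Cls} (hA : AlbUK D) (hM : MFN D) (hCo : CoreTGPN D) :
    MainSCK D PTG := by
  intro n X _ _ _ _ _ _ hDX w hw E Γ _ _ _ _ p hp Q _ f hf
  obtain ⟨_, _, _, hfg, -⟩ := H639.V.v15Stmt n X w hw E Γ p hp
  obtain ⟨G, K, N, F, A, c, hAl, hD, heq, hreg, hgc, hKfgG, hNn⟩ := prepN hA hM hDX hw hp
  have hadd := alb_add hAl
  have hKG : K ≤ G := fun g hg => ((hAl.mem g).1 hg).1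
  have hKfg : Group.FG K := Group.fg_of_surjective
    (f := (Subgroup.subgroupOfEquivOfLe hKG).toMonoidHom) (Subgroup.subgroupOfEquivOfLe hKG).surjective
  have hKffg : Group.FG (K.map f) :=
    Group.fg_of_surjective (f := f.subgroupMap K) (f.subgroupMap_surjective K)
  by_cases hns : NSRep Q
  · exact Or.inl hns
  by_cases hnk : Kazhdan (K.map f)
  · exact Or.inr ((t3C0_of_image f hf G K hAl.fi c hadd hAl.mem hAl.disc hAl.span hKffg hnk).mono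
      (Nat.mul_le_mul_left 2 hNn))
  exfalso
  have hnvi : ¬ VirtIndicable (K.map f) := fun hv => end_of_reg hw hp hAl hreg
    (grpAStmt Γ Q f hf hfg G K hAl.fi N c hadd hAl.mem hAl.disc hAl.span hKffg hv
      (uni_of_conn hw hp hAl hgc))
  obtain ⟨M, hMn, A₁, c₁, E', _, _, _, p', F', hMe, ⟨e⟩, hp', hB', heq', hreg', hgc', hD', hK'⟩ :=
    dataTN hM hDX hw hp f hD hAl.mem hAl.hol heq hreg
  have h1 : Group.FG (K.map (QuotientGroup.mk' M)) :=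
    Group.fg_of_surjective (f := e.symm.toMonoidHom) e.symm.surjective
  have h2 : ¬ VirtIndicable (K.map (QuotientGroup.mk' M)) :=
    fun h => hnvi (H465.V19.virtIndicable_of_equiv e h)
  exact hCo n X hDX w hw E' _ p' hp' N F' _ _ A₁ c₁ hB' heq' hreg' hgc' hD' hK' h1 h2
    (finRepIn_quo f hf hD hAl.mem hns M hMe h1 h2) (fun h => hnk (h.of_equiv e))

end Vale.Agent.P284.H213.N
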