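import Vale.Agent.P284.H213.G.Asm
import Vale.Agent.P284.H494.N.Norm4
import Vale.Agent.P284.H608.S.Eqv

/-!
# P284 (helper213), program N: statements of the assembly

No finite étale covering of `X` occurs: all data are those of a Galois covering `p : E → X` of the
manifold `X` of the class `D`, with its group `Γ`; `G` is a normal subgroup of finite index of `Γ`,
`F (g • y) = A g (F y) + c g` for all `g : Γ`, with `A = 1` on `G`.
-/

open scoped Manifold ContDiff Topology Pointwise ComplexConjugate ComplexOrder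
open Filter Set Metric MeasureTheory

noncomputable section

namespace Vale.Agent.P284.H213.N

open Vale.Agent.P272.K Vale.Agent.P284.H248 Vale.Agent.P284.H894 Vale.Agent.P284.H894.G
  Vale.Agent.P284.H894.V Vale.Agent.P284.H894.W Vale.Agent.P284.H894.F Vale.Agent.P284.H998
  Vale.Agent.P284.H213.Grp Vale.Agent.P284.H213.Q Vale.Agent.P284.H119.Kaz
  Vale.Agent.P284.H213.T3 Vale.Agent.P284.H213.K Vale.Agent.P284.H213.G Vale.Agent.P284.H494.N

/-- **MF-N**: for every map to `ℂ^q`, equivariant under `Γ` up to affine maps, with lattice periods on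
the normal subgroup `G` of finite index, of rank `q` somewhere, the generic fibre is connected. -/
def MFN (D : Cls) : Prop :=
  ∀ (n : ℕ) (X : Type) [TopologicalSpace X] [T2Space X] [CompactSpace X] [ConnectedSpace X]
    [ChartedSpace (Cm n) X] [IsManifold 𝓘(ℂ, Cm n) ω X]
    (_ : D n X) (w : Chart n X → Cm n → Matrix (Fin n) (Fin n) ℂ), IsKahler w →
    ∀ (E Γ : Type) [TopologicalSpace E] [ConnectedSpace E] [Group Γ] [MulAction Γ E]
      (p : E → X), IsGalois Γ p →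
    ∀ (q : ℕ) (F : E → Cm q) (G : Subgroup Γ) (A : Γ →* (Cm q ≃ₗ[ℂ] Cm q)) (c : Γ → Cm q),
      ADat Γ G q A c → (∃ B, HolB p w F B) → (∀ g y, F (g • y) = A g (F y) + c g) →
      (∃ y, Reg (n := n) p F y) → GenConn (n := n) p F

/-- **CORE-N**, kernels without property (T), normalised data -/
def CoreTN (D : Cls) : Prop :=
  ∀ (n : ℕ) (X : Type) [TopologicalSpace X] [T2Space X] [CompactSpace X] [ConnectedSpace X]
    [ChartedSpace (Cm n) X] [IsManifold 𝓘(ℂ, Cm n) ω X]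
    (_ : D n X) (w : Chart n X → Cm n → Matrix (Fin n) (Fin n) ℂ), IsKahler w →
    ∀ (E Γ : Type) [TopologicalSpace E] [ConnectedSpace E] [Group Γ] [MulAction Γ E]
      (p : E → X), IsGalois Γ p →
    ∀ (q : ℕ) (F : E → Cm q) (G K : Subgroup Γ) (A : Γ →* (Cm q ≃ₗ[ℂ] Cm q)) (c : Γ → Cm q),
      (∃ B, HolB p w F B) → (∀ g y, F (g • y) = A g (F y) + c g) →
      (∃ y, Reg (n := n) p F y) → GenConn (n := n) p F →
      NPkgA Γ G q A c K → H573.DK.FinRep K → ¬ Kazhdan K → False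

/-- **CORE-N**, the same with the representations of `Γ` -/
def CoreTGN (D : Cls) : Prop :=
  ∀ (n : ℕ) (X : Type) [TopologicalSpace X] [T2Space X] [CompactSpace X] [ConnectedSpace X]
    [ChartedSpace (Cm n) X] [IsManifold 𝓘(ℂ, Cm n) ω X]
    (_ : D n X) (w : Chart n X → Cm n → Matrix (Fin n) (Fin n) ℂ), IsKahler w →
    ∀ (E Γ : Type) [TopologicalSpace E] [ConnectedSpace E] [Group Γ] [MulAction Γ E]
      (p : E → X), IsGalois Γ p →
    ∀ (q : ℕ) (F : E → Cm q) (G K : Subgroup Γ) (A : Γ →* (Cm q ≃ₗ[ℂ] Cm q)) (c : Γ → Cm q),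
      (∃ B, HolB p w F B) → (∀ g y, F (g • y) = A g (F y) + c g) →
      (∃ y, Reg (n := n) p F y) → GenConn (n := n) p F →
      NPkgA Γ G q A c K → FinRepIn Γ K → ¬ Kazhdan K → False

/-- **CORE-N**, strong form (T3⁺) -/
def CoreTPN (D : Cls) : Prop :=
  ∀ (n : ℕ) (X : Type) [TopologicalSpace X] [T2Space X] [CompactSpace X] [ConnectedSpace X]
    [ChartedSpace (Cm n) X] [IsManifold 𝓘(ℂ, Cm n) ω X]
    (_ : D n X) (w : Chart n X → Cm n → Matrix (Fin n) (Fin n) ℂ), IsKahler w →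
    ∀ (E Γ : Type) [TopologicalSpace E] [ConnectedSpace E] [Group Γ] [MulAction Γ E]
      (p : E → X), IsGalois Γ p →
    ∀ (q : ℕ) (F : E → Cm q) (G K : Subgroup Γ) (A : Γ →* (Cm q ≃ₗ[ℂ] Cm q)) (c : Γ → Cm q),
      (∃ B, HolB p w F B) → (∀ g y, F (g • y) = A g (F y) + c g) →
      (∃ y, Reg (n := n) p F y) → GenConn (n := n) p F →
      ADat Γ G q A c → (∀ g, g ∈ K ↔ g ∈ G ∧ c g = 0) → Group.FG K → ¬ VirtIndicable K →
      H573.DK.FinRep K → ¬ Kazhdan K → False

/-- **CORE-N**, strong form (T3⁺), representations of `Γ` -/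
def CoreTGPN (D : Cls) : Prop :=
  ∀ (n : ℕ) (X : Type) [TopologicalSpace X] [T2Space X] [CompactSpace X] [ConnectedSpace X]
    [ChartedSpace (Cm n) X] [IsManifold 𝓘(ℂ, Cm n) ω X]
    (_ : D n X) (w : Chart n X → Cm n → Matrix (Fin n) (Fin n) ℂ), IsKahler w →
    ∀ (E Γ : Type) [TopologicalSpace E] [ConnectedSpace E] [Group Γ] [MulAction Γ E]
      (p : E → X), IsGalois Γ p →
    ∀ (q : ℕ) (F : E → Cm q) (G K : Subgroup Γ) (A : Γ →* (Cm q ≃ₗ[ℂ] Cm q)) (c : Γ → Cm q),
      (∃ B, HolB p w F B) → (∀ g y, F (g • y) = A g (F y) + c g) →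
      (∃ y, Reg (n := n) p F y) → GenConn (n := n) p F →
      ADat Γ G q A c → (∀ g, g ∈ K ↔ g ∈ G ∧ c g = 0) → Group.FG K → ¬ VirtIndicable K →
      FinRepIn Γ K → ¬ Kazhdan K → False

theorem coreTN_of {D : Cls} (h : CoreTGN D) : CoreTN D := by
  intro n X _ _ _ _ _ _ hD w hw E Γ _ _ _ _ p hp q F G K A c hB heq hreg hgc hN hfr
  exact h n X hD w hw E Γ p hp q F G K A c hB heq hreg hgc hN (finRepIn_of_finRep hfr)

theorem coreTPN_of {D : Cls} (h : CoreTGPN D) : CoreTPN D := by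
  intro n X _ _ _ _ _ _ hD w hw E Γ _ _ _ _ p hp q F G K A c hB heq hreg hgc h1 h2 h3 h4 hfr
  exact h n X hD w hw E Γ p hp q F G K A c hB heq hreg hgc h1 h2 h3 h4 (finRepIn_of_finRep hfr)

end Vale.Agent.P284.H213.N
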