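import Vale.Agent.P284.H213.N.MfS

/-!
# P284 (helper213), program N, module N4: the union of the affine translates of a periodic divisor
-/

open scoped Manifold ContDiff Topology Pointwise ComplexConjugate ComplexOrder
open Filter Set Metric MeasureTheory

noncomputable section

namespace Vale.Agent.P284.H213.N

open Vale.Agent.P272.K Vale.Agent.P284.H894.V Vale.Agent.P284.H213.Grp Vale.Agent.P284.H279
  Vale.Agent.P284.H213.MF Vale.Agent.P284.H494.N

/-! ### germs -/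

theorem germ_mul {q : ℕ} {f g : Cm q → ℂ} {x : Cm q} (hf : AnalyticAt ℂ f x)
    (hg : AnalyticAt ℂ g x) (hf0 : ¬ ∀ᶠ z in 𝓝 x, f z = 0) (hg0 : ¬ ∀ᶠ z in 𝓝 x, g z = 0) :
    ¬ ∀ᶠ z in 𝓝 x, f z * g z = 0 := by
  intro h
  obtain ⟨r, hr, hb⟩ := Metric.eventually_nhds_iff_ball.1
    (h.and ((hf.eventually_analyticAt).and hg.eventually_analyticAt))
  have h1 : ∃ z ∈ ball x r, g z ≠ 0 := by
    by_contra hcon
    push Not at hcon
    exact hg0 (Filter.eventually_of_mem (ball_mem_nhds x hr) hcon)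
  obtain ⟨z, hz, hgz⟩ := h1
  have h2 : f =ᶠ[𝓝 z] 0 := by
    filter_upwards [(hb z hz).2.2.continuousAt.eventually_ne hgz, isOpen_ball.mem_nhds hz]
      with y hy hyb
    exact (mul_eq_zero.1 (hb y hyb).1).resolve_right hy
  have h3 : AnalyticOnNhd ℂ f (ball x r) := fun y hy => (hb y hy).2.1
  have h4 := h3.eqOn_zero_of_preconnected_of_eventuallyEq_zero
    (convex_ball x r).isPreconnected hz h2
  exact hf0 (Filter.eventually_of_mem (ball_mem_nhds x hr) fun y hy => h4 hy)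

theorem germ_prod {q : ℕ} {ι : Type} (s : Finset ι) {f : ι → Cm q → ℂ} {x : Cm q}
    (hf : ∀ i, AnalyticAt ℂ (f i) x) (hf0 : ∀ i, ¬ ∀ᶠ z in 𝓝 x, f i z = 0) :
    ¬ ∀ᶠ z in 𝓝 x, ∏ i ∈ s, f i z = 0 := by
  classical
  induction s using Finset.induction_on with
  | empty =>
    intro h
    simpa using h.self_of_nhds
  | insert a s ha ih =>
    intro h
    refine germ_mul (hf a) ?_ (hf0 a) ih ?_
    · exact Finset.analyticAt_fun_prod _ fun i _ => hf i
    · filter_upwards [h] with z hz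
      rwa [Finset.prod_insert ha] at hz

/-! ### affine maps -/

section
variable {Γ : Type} [Group Γ] {G : Subgroup Γ} {q : ℕ} {A : Γ →* (Cm q ≃ₗ[ℂ] Cm q)}
  {c : Γ → Cm q}

variable (A c) in
/-- the affine map of `g` -/
def aff (g : Γ) (t : Cm q) : Cm q := A g t + c g

theorem aff_mul (hD : ADat Γ G q A c) (g h : Γ) (t : Cm q) :
    aff A c (g * h) t = aff A c g (aff A c h t) := by
  show A (g * h) t + c (g * h) = A g (A h t + c h) + c g
  rw [hD.coc, map_mul, map_add, add_assoc]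
  rfl

theorem aff_one (hD : ADat Γ G q A c) (t : Cm q) : aff A c 1 t = t := by
  show A 1 t + c 1 = t
  rw [hD.map_one, map_one, add_zero]
  rfl

theorem aff_mem (hD : ADat Γ G q A c) {g : Γ} (hg : g ∈ G) (t : Cm q) :
    aff A c g t = t + c g := by
  show A g t + c g = _
  rw [hD.one g hg]
  rfl

theorem aff_add (g : Γ) (t v : Cm q) : aff A c g (t + v) = aff A c g t + A g v := by
  show A g (t + v) + c g = A g t + c g + A g v
  rw [map_add]
  abel

theorem aff_cont (g : Γ) : Continuous (aff A c g) :=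
  ((A g).toLinearMap.continuous_of_finiteDimensional).add continuous_const

theorem aff_an (g : Γ) (t : Cm q) : AnalyticAt ℂ (aff A c g) t :=
  ((LinearMap.toContinuousLinearMap (A g).toLinearMap).analyticAt t).add analyticAt_const

theorem aff_open (hD : ADat Γ G q A c) (g : Γ) (t : Cm q) {P : Cm q → Prop}
    (h : ∀ᶠ z in 𝓝 t, P (aff A c g z)) : ∀ᶠ z in 𝓝 (aff A c g t), P z := by
  have h1 : Tendsto (aff A c g⁻¹) (𝓝 (aff A c g t)) (𝓝 t) := by
    have h2 := (aff_cont (A := A) (c := c) g⁻¹).tendsto (aff A c g t)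
    rwa [← aff_mul hD, inv_mul_cancel, aff_one hD] at h2
  filter_upwards [h1.eventually h] with z hz
  rwa [← aff_mul hD, mul_inv_cancel, aff_one hD] at hz

/-- the equation of the translate of a divisor, composed with an affine map -/
theorem comp_ne (hD : ADat Γ G q A c) (g : Γ) {x : Cm q} {ϑ : Cm q → ℂ}
    (h : ¬ ∀ᶠ z in 𝓝 (aff A c g x), ϑ z = 0) : ¬ ∀ᶠ z in 𝓝 x, ϑ (aff A c g z) = 0 :=
  fun h1 => h (aff_open hD g x h1)

/-! ### the union of the translates -/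

theorem per_conj (hD : ADat Γ G q A c) (g : Γ) {l : Cm q} (hl : l ∈ per (fun g : G => c g) hD.lat) :
    A g l ∈ per (fun g : G => c g) hD.lat := by
  obtain ⟨k, rfl⟩ := hl
  exact ⟨⟨g * k * g⁻¹, hD.normal.conj_mem k k.2 g⟩, hD.conj g k.2⟩

variable [Fintype (Γ ⧸ G)]

/-- the union of the affine translates of the divisor `Ed` -/
def totE (G : Subgroup Γ) [Fintype (Γ ⧸ G)] (A : Γ →* (Cm q ≃ₗ[ℂ] Cm q)) (c : Γ → Cm q)
    (Ed : (Cm q → ℂ) → Cm q → Prop) (θ : Cm q → ℂ) (x : Cm q) : Prop :=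
  ∃ ϑ : Γ ⧸ G → Cm q → ℂ, (∀ i, Ed (ϑ i) (aff A c i.out x)) ∧
    θ = fun z => ∏ i, ϑ i (aff A c i.out z)

theorem perDiv_totE (hD : ADat Γ G q A c) {Ed : (Cm q → ℂ) → Cm q → Prop}
    (hE : PerDiv (per (fun g : G => c g) hD.lat) Ed) :
    PerDiv (per (fun g : G => c g) hD.lat) (totE G A c Ed) where
  ex x := by
    choose ϑ hϑ using fun i : Γ ⧸ G => hE.ex (aff A c i.out x)
    exact ⟨_, ϑ, hϑ, rfl⟩
  ana θ x := by
    rintro ⟨ϑ, hϑ, rfl⟩
    exact Finset.analyticAt_fun_prod _ fun i _ => (hE.ana _ _ (hϑ i)).comp (aff_an _ _)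
  ne θ x := by
    rintro ⟨ϑ, hϑ, rfl⟩
    exact germ_prod _ (fun i => (hE.ana _ _ (hϑ i)).comp (aff_an _ _))
      fun i => comp_ne hD _ (hE.ne _ _ (hϑ i))
  opn θ x := by
    rintro ⟨ϑ, hϑ, rfl⟩
    filter_upwards [eventually_all.2 fun i => ((aff_cont (A := A) (c := c) i.out).tendsto x).eventually
      (hE.opn _ _ (hϑ i))] with z hz
    exact ⟨ϑ, hz, rfl⟩
  unit θ θ' x := by
    rintro ⟨ϑ, hϑ, rfl⟩ ⟨ϑ', hϑ', rfl⟩
    choose u hu hu0 huu using fun i => hE.unit _ _ _ (hϑ i) (hϑ' i)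
    refine ⟨fun z => ∏ i, u i (aff A c i.out z), ?_, ?_, ?_⟩
    · exact Finset.analyticAt_fun_prod _ fun i _ => (hu i).comp (aff_an _ _)
    · exact Finset.prod_ne_zero_iff.2 fun i _ => hu0 i
    · filter_upwards [eventually_all.2 fun i =>
        ((aff_cont (A := A) (c := c) i.out).tendsto x).eventually (huu i)] with z hz
      rw [← Finset.prod_mul_distrib]
      exact Finset.prod_congr rfl fun i _ => hz i
  per θ x := by
    rintro ⟨ϑ, hϑ, rfl⟩ l hl
    refine ⟨fun i z => ϑ i (z - A i.out l), fun i => ?_, ?_⟩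
    · rw [aff_add]
      exact hE.per _ _ (hϑ i) _ (per_conj hD _ hl)
    · funext z
      refine Finset.prod_congr rfl fun i _ => ?_
      have h1 : aff A c i.out z = aff A c i.out (z - l) + A i.out l := by
        rw [← aff_add, sub_add_cancel]
      rw [h1]
      show ϑ i (aff A c i.out (z - l)) = ϑ i (aff A c i.out (z - l) + A i.out l - A i.out l)
      rw [add_sub_cancel_right]

theorem zs_add {Λ : AddSubgroup (Cm q)} {Ed : (Cm q → ℂ) → Cm q → Prop} (hE : PerDiv Λ Ed)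
    {l : Cm q} (hl : l ∈ Λ) (x : Cm q) : x + l ∈ zs Ed ↔ x ∈ zs Ed := le_stab hE hl x

/-- the support of the union of the translates -/
theorem mem_zs_totE (hD : ADat Γ G q A c) {Ed : (Cm q → ℂ) → Cm q → Prop}
    (hE : PerDiv (per (fun g : G => c g) hD.lat) Ed) (x : Cm q) :
    x ∈ zs (totE G A c Ed) ↔ ∃ g : Γ, aff A c g x ∈ zs Ed := by
  constructor
  · rintro ⟨θ, ⟨ϑ, hϑ, rfl⟩, h0⟩
    obtain ⟨i, -, hi⟩ := Finset.prod_eq_zero_iff.1 h0
    exact ⟨i.out, ϑ i, hϑ i, hi⟩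
  · rintro ⟨g, hg⟩
    have hGn := hD.normal
    set i : Γ ⧸ G := (g : Γ ⧸ G) with hi
    have h1 : g * (i.out)⁻¹ ∈ G := by
      have h2 : ((g * (i.out)⁻¹ : Γ) : Γ ⧸ G) = 1 := by
        rw [QuotientGroup.mk_mul, QuotientGroup.mk_inv, QuotientGroup.out_eq', ← hi,
          mul_inv_cancel]
      exact (QuotientGroup.eq_one_iff _).1 h2
    have h3 : aff A c i.out x ∈ zs Ed := by
      have h4 : g = g * (i.out)⁻¹ * i.out := by group
      rw [h4, aff_mul hD, aff_mem hD h1] at hg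
      exact (zs_add hE ⟨⟨_, h1⟩, rfl⟩ _).1 hg
    choose ϑ hϑ using fun i : Γ ⧸ G => hE.ex (aff A c i.out x)
    refine ⟨_, ⟨ϑ, hϑ, rfl⟩, Finset.prod_eq_zero (Finset.mem_univ i) ?_⟩
    exact (zs_iff hE (hϑ i)).1 h3

theorem zs_totE_aff (hD : ADat Γ G q A c) {Ed : (Cm q → ℂ) → Cm q → Prop}
    (hE : PerDiv (per (fun g : G => c g) hD.lat) Ed) (g : Γ) (x : Cm q) :
    aff A c g x ∈ zs (totE G A c Ed) ↔ x ∈ zs (totE G A c Ed) := by
  rw [mem_zs_totE hD hE, mem_zs_totE hD hE]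
  constructor
  · rintro ⟨h, hh⟩
    exact ⟨h * g, by rw [aff_mul hD]; exact hh⟩
  · rintro ⟨h, hh⟩
    refine ⟨h * g⁻¹, ?_⟩
    rw [← aff_mul hD, inv_mul_cancel_right]
    exact hh

theorem zs_sub_totE (hD : ADat Γ G q A c) {Ed : (Cm q → ℂ) → Cm q → Prop}
    (hE : PerDiv (per (fun g : G => c g) hD.lat) Ed) : zs Ed ⊆ zs (totE G A c Ed) :=
  fun x hx => (mem_zs_totE hD hE x).2 ⟨1, by rwa [aff_one hD]⟩

/-- the directions of the union of the translates are stable under the linear parts -/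
theorem dirs_totE (hD : ADat Γ G q A c) {Ed : (Cm q → ℂ) → Cm q → Prop}
    (hE : PerDiv (per (fun g : G => c g) hD.lat) Ed) (g : Γ) {v : Cm q}
    (hv : v ∈ dirs (perDiv_totE hD hE)) : A g v ∈ dirs (perDiv_totE hD hE) := by
  refine dirs_of _ fun s x hx => ?_
  have h1 : aff A c g⁻¹ x ∈ zs (totE G A c Ed) := (zs_totE_aff hD hE _ _).2 hx
  have h2 : aff A c g⁻¹ x + s • v ∈ zs (totE G A c Ed) :=
    (dirs_smul _ ((dirs (perDiv_totE hD hE)).smul_mem s hv) _).2 h1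
  have h3 := (zs_totE_aff hD hE g _).2 h2
  rwa [aff_add, ← aff_mul hD, mul_inv_cancel, aff_one hD, map_smul] at h3

end

end Vale.Agent.P284.H213.N
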