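import Vale.Agent.P284.H213.N.Asm
import Vale.Agent.P284.H213.K.Fin
import Vale.Agent.P284.H837.N.S
import Vale.Agent.P284.H625.N.Sp

/-!
# P284 (helper213), program N: the class of the manifolds with `NoV`, and special manifolds
-/

open scoped Manifold ContDiff Topology ENNReal InnerProductSpace
open Filter Set Metric MeasureTheory

noncomputable section

namespace Vale.Agent.P284.H213.N

open Vale.Agent.P272.K Vale.Agent.P284.H248 Vale.Agent.P284.H573 Vale.Agent.P284.H894.G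
  Vale.Agent.P284.H894.W Vale.Agent.P284.H494 Vale.Agent.P284.H998 Vale.Agent.P284.H672
  Vale.Agent.P284.H224 Vale.Agent.P284.H279 Vale.Agent.P284.H213.Grp Vale.Agent.P284.H213.Q
  Vale.Agent.P284.H213.MF Vale.Agent.P284.H10 Vale.Agent.P284.H837 Vale.Agent.P284.H174
  Vale.Agent.P284.H221 Vale.Agent.P284.H213.K Vale.Agent.P284.H837.N

section
variable {n : ℕ} {X : Type} [TopologicalSpace X] [ChartedSpace (Cm n) X]
  [IsManifold 𝓘(ℂ, Cm n) ω X]

/-- `NoV` without the equivariance hypothesis -/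
theorem noV_noeqv (h : NoV n X) (E Γ : Type) [TopologicalSpace E] [ConnectedSpace E] [Group Γ]
    [MulAction Γ E] (p : E → X) (hG : IsGalois Γ p) (q : ℕ) (F : E → Cm q)
    (hF : ∀ (y : E) (e : Chart n X), At e (p y) → ∃ f : Cm n → Cm q,
      (∀ᶠ y' in 𝓝 y, F y' = f (e (p y'))) ∧ AnalyticAt ℂ f (e (p y)))
    (hA : Aff Γ F)
    (H : Type) [NormedAddCommGroup H] [InnerProductSpace ℂ H] [CompleteSpace H]
    (R m : ℕ) (hR : 1 ≤ R) (hm : 1 ≤ m) (v : E → Chart n X → (Fin R → Cm n) → H)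
    (hv : HForm n R m p H v)
    (hN : ∃ y₀ e b γ t, NFF m p v F y₀ e b γ t) (hL : LFin Γ m p v F) : False := by
  obtain ⟨y₀, e, b, γ, t, hN⟩ := hN
  refine h E Γ p hG q F hF hA (EQ.VS p v) R m hR hm (EQ.vS p v) (EQ.vS_hform hG.cov hv)
    (fun g => ?_) ⟨y₀, e, b, _, t, EQ.nff_vS hG.cov hN⟩ (EQ.lfin_vS hG.cov hL)
  obtain ⟨U, hU⟩ := EQ.vS_eqv hG hv g
  exact ⟨U.toLinearIsometry, hU⟩

theorem noFE_noV (h : NoV n X) : NoFE n X := by
  intro E Γ _ _ _ _ p hG S hSf R m hR hm H _ _ _ v hv hfix hgood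
  obtain ⟨y₀, e, b, γ, hN⟩ := hgood
  refine noV_noeqv h E Γ p hG 0 (fun _ => 0)
    (fun y e _ => ⟨fun _ => 0, Eventually.of_forall fun _ => rfl, analyticAt_const⟩)
    (aff_of_trans (c := fun _ => 0) fun g y => (add_zero _).symm) H R m hR hm v hv
    ⟨y₀, e, b, γ, fun _ => 0, hN, analyticAt_const, Eventually.of_forall fun _ => rfl⟩
    (EQ.lfin_of_finite S hSf (fun _ _ _ => rfl) hfix)

end

/-- **ALB+U** for the class `noVC` -/
theorem albUK_noV : AlbUK noVC :=
  albUK_of fun _ _ _ _ _ _ _ _ _ _ hD => noFE_noV hD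

/-- special projective manifolds belong to `noVC` -/
theorem spPN : SpPN := by
  intro n X _ _ _ _ _ _ ι _ J hX E Γ _ _ _ _ p hp q F hF hA H _ _ _ R m hR hm v hv heq hN hL
  exact H625.N.spStmtN n X ι J hX E Γ p hp q F hF hA H R m hR hm v hv heq hN hL

/-! ### The theorems for the class `noVC` -/

/-- **T1'** -/
theorem mainQN (hM : MFN noVC) (hCo : CoreTN noVC) : MainPiK noVC PQ :=
  mainPiK_of (mainSCQN_of albUK_noV hM hCo)

/-- **T3** -/
theorem mainNN (hM : MFN noVC) (hCo : CoreTN noVC) : MainPiK noVC PN :=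
  mainPiK_of (mainSCNN_of albUK_noV hM hCo)

/-- **T3G** -/
theorem mainNGN (hM : MFN noVC) (hCo : CoreTGN noVC) : MainPiK noVC G.PNG :=
  mainPiK_of (mainSCNGN_of albUK_noV hM hCo)

/-- **T3⁺** -/
theorem mainTN (hM : MFN noVC) (hCo : CoreTPN noVC) : MainPiK noVC PT :=
  mainPiK_of (mainSCTN_of albUK_noV hM hCo)

/-- **T3⁺G** -/
theorem mainTGN (hM : MFN noVC) (hCo : CoreTGPN noVC) : MainPiK noVC G.PTG :=
  mainPiK_of (mainSCTGN_of albUK_noV hM hCo)

/-! ### Special manifolds -/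

/-- special manifolds -/
def spC : Cls := fun n X _ _ => Special n X

/-- restriction of the class -/
theorem mainPiK_mono {D D' : Cls} {P : (Q : Type) → [Group Q] → ℕ → Prop}
    (hD : ∀ (n : ℕ) (X : Type) [TopologicalSpace X] [T2Space X] [CompactSpace X] [ConnectedSpace X]
      [ChartedSpace (Cm n) X] [IsManifold 𝓘(ℂ, Cm n) ω X]
      (w : Chart n X → Cm n → Matrix (Fin n) (Fin n) ℂ), IsKahler w → D' n X → D n X)
    (h : MainPiK D P) : MainPiK D' P := by
  intro n X _ _ _ _ _ _ hX w hw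
  exact h n X (hD n X w hw hX) w hw

/-- special projective manifolds -/
theorem mainPiK_pj {P : (Q : Type) → [Group Q] → ℕ → Prop} (h : MainPiK noVC P) :
    MainPiK (pjC spC) P :=
  mainPiK_mono (fun n X _ _ _ _ _ _ w hw hX => by
    obtain ⟨⟨ι, hι, ⟨J⟩⟩, hX⟩ := hX
    exact spPN n X ι J hX) h

/-- special compact Kähler manifolds -/
theorem mainPiK_sp (hSp : SpKN) {P : (Q : Type) → [Group Q] → ℕ → Prop} (h : MainPiK noVC P) :
    MainPiK spC P :=
  mainPiK_mono (fun n X _ _ _ _ _ _ w hw hX => hSp n X w hw hX) h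

end Vale.Agent.P284.H213.N
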