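import Vale.Agent.P284.H213.N.Div
import Vale.Agent.P284.H213.K.Mf
import Vale.Agent.P284.H224.N.Tw

/-!
# P284 (helper213), program N, module N4 (MF-N): assembly

The proof is that of `K/Mf.lean`, over the finite covering `Y = E / G`; the branch divisor is replaced
by the union of its affine translates, so that the quotient torus is stable under the whole group.
-/

open scoped Manifold ContDiff Topology ENNReal
open Filter Set Metric MeasureTheory

noncomputable section

namespace Vale.Agent.P284.H213.N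

open Vale.Agent.P272.K Vale.Agent.P284.H573 Vale.Agent.P284.H894.G Vale.Agent.P284.H894.W
  Vale.Agent.P284.H494 Vale.Agent.P284.H998 Vale.Agent.P284.H672 Vale.Agent.P284.H224
  Vale.Agent.P284.H279 Vale.Agent.P284.H213.Grp Vale.Agent.P284.H213.Q Vale.Agent.P284.H213.MF
  Vale.Agent.P284.H10 Vale.Agent.P284.H837 Vale.Agent.P284.H174 Vale.Agent.P284.H494.N

theorem twi_of {Γ E : Type} [Group Γ] [MulAction Γ E] {q : ℕ} {F : E → Cm q}
    {A : Γ →* (Cm q ≃ₗ[ℂ] Cm q)} {c : Γ → Cm q} (h : ∀ g y, F (g • y) = A g (F y) + c g) :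
    H224.N.Twi Γ F :=
  fun g => ⟨(A g).toContinuousLinearEquiv, c g, fun y => h g y⟩

/-- **MF-N** for the class `D`: assembly -/
theorem mfN_of' {D : Cls} (hOne : OneN D) (hRV : RVStmt) (hPre : PreStmt) (hBr : BrStmt)
    (hRam : NoRamN D) : MFN D := by
  intro n X _ _ _ _ _ _ hDX w hw E Γ _ _ _ _ p hp q₀ F₀ G A₀ c₀ hD₀ hB₀ heq₀ hreg₀
  have hGn := hD₀.normal
  have hGf := hD₀.fi
  have hfin : Fintype (Γ ⧸ G) := Fintype.ofFinite _
  obtain ⟨Y, _, _, _, _, _, _, pY, π, hπ, hπc, hpY, hπp⟩ := H885.exists_quo n X E Γ p hp G hD₀.fi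
  have hRVe : ∀ {r : ℕ} (F : E → Cm r), RV n pY F = RV n p F := by
    intro r F
    ext t
    exact forall_congr' fun y => imp_congr_right fun _ => hπ.reg_iff hπp
  -- all regular fibres are connected
  have key : ∀ (q : ℕ) (F : E → Cm q) (A : Γ →* (Cm q ≃ₗ[ℂ] Cm q)) (c : Γ → Cm q),
      ADat Γ G q A c → (∃ B, HolB p w F B) → (∀ g y, F (g • y) = A g (F y) + c g) →
      (∃ y, Reg (n := n) p F y) → ∀ t ∈ RV n p F, IsConnected (F ⁻¹' {t}) := by
    intro q
    induction q using Nat.strong_induction_on with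
    | _ q ih =>
    intro F A c hD hB heq hreg
    have hlat := hD.lat
    have hF : Per pY (H885.pull π w) F (fun g : G => c g) := by
      refine ⟨?_, fun g y => ?_, hlat.disc⟩
      · obtain ⟨B, hB⟩ := hB
        exact ⟨B, hπ.holB hπp hB⟩
      · show F ((g : Γ) • y) = _
        rw [heq, hD.one g g.2]
        rfl
    have hregY : ∃ y, Reg (n := n) pY F y := by
      obtain ⟨y, hy⟩ := hreg
      exact ⟨y, (hπ.reg_iff hπp).2 hy⟩
    have hone : One n G pY F (fun g : G => c g) := by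
      intro y y' hyy hrv
      rw [hRVe] at hrv
      obtain ⟨g, hg, h1, h2⟩ := hOne n X hDX w hw E Γ p hp q F G A c hD hB heq hreg y y' hyy hrv
      exact ⟨⟨g, hg⟩, h1, h2⟩
    obtain ⟨Ed₀, hEd₀, hcrit₀, htop₀⟩ := hBr n q Y (H885.pull π w) E G pY hpY F _ hF hregY hone hlat
    have hEd := perDiv_totE hD hEd₀
    set Ed := totE G A c Ed₀ with hEdd
    have htw := twi_of heq
    have hcrit : ∀ y, F y ∈ zs Ed → ¬ Reg (n := n) p F y := by
      intro y hy hr
      obtain ⟨g, hg⟩ := (mem_zs_totE hD hEd₀ _).1 hy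
      have h1 : aff A c g (F y) = F (g • y) := (heq g y).symm
      rw [h1] at hg
      exact hcrit₀ _ hg ((hπ.reg_iff hπp).2 ((htw.reg_smul_iff hp g y).2 hr))
    have htop : ∀ O : Set (Cm q), IsOpen O → Convex ℝ O → O.Nonempty → IsPreconnected (F ⁻¹' O) →
        Disjoint O (zs Ed) → ∀ t ∈ RV n p F, IsConnected (F ⁻¹' {t}) := by
      intro O h1 h2 h3 h4 h5 t ht
      rw [← hRVe] at ht
      exact htop₀ O h1 h2 h3 h4 (h5.mono_right (zs_sub_totE hD hEd₀)) t ht
    rcases (zs Ed).eq_empty_or_nonempty with hemp | hne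
    · refine htop univ isOpen_univ convex_univ univ_nonempty ?_ ?_
      · rw [preimage_univ]; exact isPreconnected_univ
      · rw [hemp]; exact disjoint_empty _
    by_cases hdir : dirs hEd = ⊥
    · exact (hRam n X hDX w hw E Γ p hp q F G A c hD hB heq hreg Ed hEd hne hcrit (fun v hv => by
        have := dirs_of hEd hv
        rwa [hdir, Submodule.mem_bot] at this)).elim
    -- the quotient torus
    set V : Submodule ℂ (Cm q) := dirs hEd with hV
    set r : ℕ := Module.finrank ℂ (Cm q ⧸ V) with hr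
    have hVpos : 0 < Module.finrank ℂ V := Nat.pos_of_ne_zero fun h => hdir (Submodule.finrank_eq_zero.1 h)
    have hsum : Module.finrank ℂ (Cm q ⧸ V) + Module.finrank ℂ V = q := by
      have := V.finrank_quotient_add_finrank
      rwa [Module.finrank_fin_fun] at this
    have hrq : r < q := by omega
    let e : (Cm q ⧸ V) ≃ₗ[ℂ] Cm r := LinearEquiv.ofFinrankEq _ _ (by
      rw [Module.finrank_fin_fun])
    set L : Cm q →ₗ[ℂ] Cm r := e.toLinearMap ∘ₗ V.mkQ with hL
    have hLs : Function.Surjective L := e.surjective.comp V.mkQ_surjective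
    have hker : LinearMap.ker L = V := by
      ext v
      rw [LinearMap.mem_ker, hL, LinearMap.comp_apply, LinearEquiv.coe_coe,
        LinearEquiv.map_eq_zero_iff, Submodule.mkQ_apply, Submodule.Quotient.mk_eq_zero]
    have hmemV : ∀ v, L v = 0 ↔ v ∈ V := fun v => by rw [← hker, LinearMap.mem_ker]
    have hst : ∀ g v, L v = 0 → L (A g v) = 0 := by
      intro g v hv
      rw [hmemV] at hv ⊢
      exact dirs_totE hD hEd₀ g hv
    have hlat' : LatChar G r (fun g : G => L (c g)) := by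
      refine hlat.quot ⊤ V (fun v hv => ?_) L hLs hker
      have h1 := dirs_span hEd (coco_of hlat) hv
      refine Submodule.span_mono ?_ h1
      rintro x ⟨⟨g, rfl⟩, hx⟩
      exact ⟨⟨g, trivial, rfl⟩, hx⟩
    obtain ⟨A₂, hA₂⟩ := exists_ind A L hLs hst
    have hD' : ADat Γ G r A₂ (fun g => L (c g)) := by
      refine ⟨hGn, hGf, fun g h => ?_, fun g hg => ?_, hlat'⟩
      · rw [hD.coc, map_add, hA₂]
      · refine LinearEquiv.ext fun v => ?_
        obtain ⟨v, rfl⟩ := hLs v
        rw [← hA₂, hD.one g hg]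
        rfl
    have heq' : ∀ g y, L (F (g • y)) = A₂ g (L (F y)) + L (c g) := by
      intro g y
      rw [heq, map_add, hA₂]
    have hB' : ∃ B, HolB p w (fun y => L (F y)) B := by
      obtain ⟨B, hB⟩ := hB
      exact HolB.linear hB L
    have hreg' : ∃ y, Reg (n := n) p (fun y => L (F y)) y := by
      obtain ⟨y, hy⟩ := hreg
      obtain ⟨B, hB⟩ := hB
      exact ⟨y, Reg.linear hp.cov hB L hLs hy⟩
    have hih := ih r hrq (fun y => L (F y)) A₂ (fun g => L (c g)) hD' hB' heq' hreg'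
    have hregY' : ∃ y, Reg (n := n) pY (fun y => L (F y)) y := by
      obtain ⟨y, hy⟩ := hreg'
      exact ⟨y, (hπ.reg_iff hπp).2 hy⟩
    have hpre := hPre n r Y (H885.pull π w) E G pY hpY (fun y => L (F y)) (fun g : G => L (c g))
      (per_linear hF L hlat') hregY' (fun t ht => hih t (by rwa [← hRVe]))
    -- a ball of the quotient which does not meet the divisor
    obtain ⟨t₀, ht₀⟩ := zs_ne_univ hEd
    have hLc : Continuous L := L.continuous_of_finiteDimensional
    have hLo : IsOpenMap L := by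
      have := (LinearMap.toContinuousLinearMap L).isOpenMap hLs
      exact this
    have hopen : IsOpen (L '' (zs Ed)ᶜ) := hLo _ (MF.zs_closed hEd).isOpen_compl
    obtain ⟨ρ, hρ, hball⟩ := Metric.isOpen_iff.1 hopen (L t₀) ⟨t₀, ht₀, rfl⟩
    refine htop (L ⁻¹' ball (L t₀) ρ) (isOpen_ball.preimage hLc) ?_ ⟨t₀, mem_ball_self hρ⟩
      (hpre (ball (L t₀) ρ) isOpen_ball (convex_ball _ _)) ?_
    · exact (convex_ball (L t₀) ρ).linear_preimage (L.restrictScalars ℝ)
    · rw [Set.disjoint_left]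
      intro t ht htz
      obtain ⟨s, hs, hst⟩ := hball ht
      have h1 : t - s ∈ V := by
        rw [← hker, LinearMap.mem_ker, map_sub, hst, sub_self]
      apply hs
      have h2 := dirs_smul hEd h1 s
      rw [add_sub_cancel] at h2
      exact h2.1 htz
  obtain ⟨B, hB⟩ := hB₀
  have hF : Per pY (H885.pull π w) F₀ (fun g : G => c₀ g) := by
    refine ⟨⟨B, hπ.holB hπp hB⟩, fun g y => ?_, hD₀.lat.disc⟩
    show F₀ ((g : Γ) • y) = _
    rw [heq₀, hD₀.one g g.2]
    rfl
  have hregY : ∃ y, Reg (n := n) pY F₀ y := by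
    obtain ⟨y, hy⟩ := hreg₀
    exact ⟨y, (hπ.reg_iff hπp).2 hy⟩
  obtain ⟨h1, h2, -⟩ := hRV n q₀ Y (H885.pull π w) E G pY hpY F₀ _ hF hregY
  rw [hRVe] at h1 h2
  refine ⟨(RV n p F₀)ᶜ, h1.isClosed_compl, ?_, fun t ht => ?_⟩
  · rw [interior_compl, h2.closure_eq, compl_univ]
  · rw [notMem_compl_iff] at ht
    exact ⟨key q₀ F₀ A₀ c₀ hD₀ ⟨B, hB⟩ heq₀ hreg₀ t ht, ht⟩

/-- **MF-N** from `OneN` and `NoRamN` -/
theorem mfN_of {D : Cls} (hOne : OneN D) (hRam : NoRamN D) : MFN D :=
  mfN_of' hOne rvStmt preStmt (br_of d1Stmt topStmt) hRam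

end Vale.Agent.P284.H213.N
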