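import Vale.Agent.P284.H213.N.S

/-!
# P284 (helper213), program N, module N4 (MF-N): the two pieces

`OneN`: two components of a regular fibre are equivalent under `ker (c|G)`. `NoRamN`: there is no
ramification over a periodic divisor which is not invariant under a direction.
-/

open scoped Manifold ContDiff Topology Pointwise ComplexConjugate ComplexOrder
open Filter Set Metric MeasureTheory

noncomputable section

namespace Vale.Agent.P284.H213.N

open Vale.Agent.P272.K Vale.Agent.P284.H248 Vale.Agent.P284.H894 Vale.Agent.P284.H894.G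
  Vale.Agent.P284.H894.V Vale.Agent.P284.H894.W Vale.Agent.P284.H894.F Vale.Agent.P284.H998
  Vale.Agent.P284.H213.Grp Vale.Agent.P284.H213.Q Vale.Agent.P284.H494 Vale.Agent.P284.H279
  Vale.Agent.P284.H224 Vale.Agent.P284.H213.MF Vale.Agent.P284.H494.N

/-- **MF-N (I)** for the class `D` -/
def OneN (D : Cls) : Prop :=
  ∀ (n : ℕ) (X : Type) [TopologicalSpace X] [T2Space X] [CompactSpace X] [ConnectedSpace X]
    [ChartedSpace (Cm n) X] [IsManifold 𝓘(ℂ, Cm n) ω X]
    (_ : D n X) (w : Chart n X → Cm n → Matrix (Fin n) (Fin n) ℂ), IsKahler w →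
    ∀ (E Γ : Type) [TopologicalSpace E] [ConnectedSpace E] [Group Γ] [MulAction Γ E]
      (p : E → X), IsGalois Γ p →
    ∀ (q : ℕ) (F : E → Cm q) (G : Subgroup Γ) (A : Γ →* (Cm q ≃ₗ[ℂ] Cm q)) (c : Γ → Cm q),
      ADat Γ G q A c → (∃ B, HolB p w F B) → (∀ g y, F (g • y) = A g (F y) + c g) →
      (∃ y, Reg (n := n) p F y) →
      ∀ y y' : E, F y' = F y → F y ∈ RV n p F → ∃ g ∈ G, c g = 0 ∧ Same F (g • y) y'

/-- **MF-N (II)** for the class `D` -/
def NoRamN (D : Cls) : Prop :=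
  ∀ (n : ℕ) (X : Type) [TopologicalSpace X] [T2Space X] [CompactSpace X] [ConnectedSpace X]
    [ChartedSpace (Cm n) X] [IsManifold 𝓘(ℂ, Cm n) ω X]
    (_ : D n X) (w : Chart n X → Cm n → Matrix (Fin n) (Fin n) ℂ), IsKahler w →
    ∀ (E Γ : Type) [TopologicalSpace E] [ConnectedSpace E] [Group Γ] [MulAction Γ E]
      (p : E → X), IsGalois Γ p →
    ∀ (q : ℕ) (F : E → Cm q) (G : Subgroup Γ) (A : Γ →* (Cm q ≃ₗ[ℂ] Cm q)) (c : Γ → Cm q)
      (hD : ADat Γ G q A c), (∃ B, HolB p w F B) → (∀ g y, F (g • y) = A g (F y) + c g) →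
      (∃ y, Reg (n := n) p F y) →
    ∀ Ed : (Cm q → ℂ) → Cm q → Prop, PerDiv (per (fun g : G => c g) hD.lat) Ed →
      (zs Ed).Nonempty → (∀ y, F y ∈ zs Ed → ¬ Reg (n := n) p F y) →
      (∀ v : Cm q, (∀ s : ℂ, ∀ x ∈ zs Ed, x + s • v ∈ zs Ed) → v = 0) → False

end Vale.Agent.P284.H213.N
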