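import Vale.Agent.P284.H213.N.Ram
import Vale.Agent.P284.H213.N.Fin
import Vale.Agent.P284.H224.N.TailF
import Vale.Agent.P284.H224.N.Tot
import Vale.Agent.P284.H224.N.Lf

/-!
# P284 (helper213), program N, module N4 (MF-N): `One` (with the tools of helper224)
-/

open scoped Manifold ContDiff Topology ENNReal
open Filter Set Metric MeasureTheory

noncomputable section

namespace Vale.Agent.P284.H213.N

open Vale.Agent.P272.K Vale.Agent.P284.H573 Vale.Agent.P284.H894.G Vale.Agent.P284.H894.W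
  Vale.Agent.P284.H494 Vale.Agent.P284.H998 Vale.Agent.P284.H672 Vale.Agent.P284.H224
  Vale.Agent.P284.H279 Vale.Agent.P284.H213.Grp Vale.Agent.P284.H213.Q Vale.Agent.P284.H213.MF
  Vale.Agent.P284.H10 Vale.Agent.P284.H837 Vale.Agent.P284.H174 Vale.Agent.P284.H494.N
  Vale.Agent.P284.H213.K Vale.Agent.P284.H837.N

/-- **MF-N (I)** for the class `noVC` -/
theorem oneN_of (hEx : ExK) (hT5 : T5K) (hRat : RatStmt) : OneN noVC := by
  intro n X _ _ _ _ _ _ hDX w hw E Γ _ _ _ _ p hp q F G A c hA hB heq hreg y y' hyy hrv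
  by_contra hcon
  push Not at hcon
  have hGn := hA.normal
  have hGf := hA.fi
  have hfin : Fintype (Γ ⧸ G) := Fintype.ofFinite _
  obtain ⟨Y, _, _, _, _, _, _, pY, π₀, hπ₀, hπc, hpY, hπp⟩ := H885.exists_quo n X E Γ p hp G hGf
  obtain ⟨B, hB⟩ := hB
  have hlat := hA.lat
  have htw := twi_of heq
  have hwY : IsKahler (H885.pull π₀ w) := hπ₀.isKahler hw
  have hF : Per pY (H885.pull π₀ w) F (fun g : G => c g) := by
    refine ⟨⟨B, hπ₀.holB hπp hB⟩, fun g y => ?_, hlat.disc⟩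
    show F ((g : Γ) • y) = _
    rw [heq, hA.one g g.2]
    rfl
  have hri : ∀ y, Reg (n := n) pY F y ↔ Reg (n := n) p F y := fun y => hπ₀.reg_iff hπp
  have hregY : ∃ y, Reg (n := n) pY F y := by
    obtain ⟨y, hy⟩ := hreg
    exact ⟨y, (hri y).2 hy⟩
  have hrvY : F y ∈ RV n pY F := fun z hz => (hri z).2 (hrv z hz)
  obtain ⟨h, hh⟩ := hEx n q Y _ hwY E G pY hpY F _ hF y y' hyy hrvY
    (fun g hg => hcon g g.2 hg)
  obtain ⟨W, _, _, _, h₁, hs, hU, hne, hker⟩ := H661.Lim.limStmt' n q Y (H885.pull π₀ w) E G pY hpY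
    F _ hF h hh
  have hint := hT5 n q Y _ hwY E G pY hpY F _ hF hregY W h₁ hs (by
    intro g _ y hy
    obtain ⟨U, hU⟩ := hU g
    rw [hU y hy, U.norm_map])
  have hS := H224.N.sheetFun_tot hπ₀ hπp hp hpY hF htw hs hU hint hne
  obtain ⟨r, m, π, H, _, _, _, v, hq, hr, hm, hπ, -, hloc, hv, hfix, hform, y₁, hy₁, γ₁, hγ₁, hi₁⟩ :=
    H224.N.tailF n q Y (H885.pull π₀ w) E G pY hpY F _ hF _ (H224.N.totF G h₁) hS
  have hlatπ := hRat n q r Y (H885.pull π₀ w) E G pY hpY F _ hF (lat_of_per hpY hF hregY) hregY _ _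
    hS π hπ hloc
  -- equivariance of the family of the translates
  have hU' : ∀ g : Γ, ∃ U : PiLp 2 (fun _ : Γ ⧸ G => W) →ₗᵢ[ℂ] PiLp 2 (fun _ : Γ ⧸ G => W),
      ∀ y, Reg (n := n) p F y → H224.N.totF G h₁ (g • y) = U (H224.N.totF G h₁ y) := by
    refine H224.N.totF_equiv hp htw fun k hk => ?_
    obtain ⟨U, hU⟩ := hU ⟨k, hk⟩
    exact ⟨U, fun y hy => hU y ((hri y).2 hy)⟩
  have hlocX : ∀ y, Reg (n := n) p F y → ∃ f : Cm r → PiLp 2 (fun _ : Γ ⧸ G => W),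
      AnalyticAt ℂ f (π (F y)) ∧ (∀ᶠ y' in 𝓝 y, H224.N.totF G h₁ y' = f (π (F y'))) ∧
        ∀ v : Cm r, (∀ᶠ a in 𝓝 (π (F y)), fderiv ℂ f a v = 0) → v = 0 :=
    fun y hy => hloc y ((hri y).2 hy)
  have hkinv := fun g A b hA' u hu => H224.N.ker_inv hp hB htw hreg π hπ hlocX hU' g A b hA' u hu
  have htw' : H224.N.Twi Γ (fun y => π (F y)) := H224.N.twi_comp htw π hπ hkinv
  -- the form over `X`
  have hpg : ∀ (g : G) (y : E), pY ((g : Γ) • y) = pY y := fun g y =>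
    ((hpY.orb y ((g : Γ) • y)).2 ⟨g, rfl⟩).symm
  have hpi : ∀ (g : Γ) (y : E), p (g • y) = p y := fun g y =>
    ((hp.orb y (g • y)).2 ⟨g, rfl⟩).symm
  have hv' : H224.N.PForm n r m pY _ v := hv.pForm
  have h1 := hv'.fl hπ₀ hpY.cov.continuous hπp
  have h2 : ∀ g ∈ G, ∀ y e, At e (p y) → ∀ ξ,
      ‖H224.N.fl π₀ pY v (g • y) e ξ‖ = ‖H224.N.fl π₀ pY v y e ξ‖ := fun g hg y e he ξ =>
    H224.N.norm_fl hπ₀ hπp hv' hv.inv (by rw [hpi]; exact he) (hpg ⟨g, hg⟩ y) ξ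
  have h3 := H224.N.hform_tot (G := G) hp h1 h2
  obtain ⟨B', hB'⟩ : ∃ B', HolB p w (fun y => π (F y)) B' := HolB.linear hB (π : Cm q →ₗ[ℂ] Cm r)
  have hrc : ∀ y, Reg (n := n) p F y → Reg (n := n) p (fun y => π (F y)) y := fun y hy =>
    Reg.linear hp.cov hB (π : Cm q →ₗ[ℂ] Cm r) hπ hy
  have hNFF := H224.N.nff_tot (G := G) (v := H224.N.fl π₀ pY v) (m := m) hp hB' htw'
    (R := {y | Reg (n := n) p F y}) (fun g y hy => (htw.reg_smul_iff hp g y).2 hy)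
    (fun y hy => hrc y hy) (fun y hy => by
      obtain ⟨γ, hγ⟩ := hform y ((hri y).2 hy)
      exact ⟨γ, hγ.fl hπ₀ hπp hv.change⟩)
    ⟨y₁, (hri y₁).1 hy₁, γ₁, hγ₁.fl hπ₀ hπp hv.change, hi₁⟩
  -- the group of the elements which act trivially
  let S₀ : Subgroup G := Fin.fixS (H224.N.totF G h₁) hpY hF π
  have hmem : ∀ g : G, g ∈ S₀ ↔ π (c g) = 0 ∧
      ∀ y, Reg (n := n) pY F y → H224.N.totF G h₁ ((g : Γ) • y) = H224.N.totF G h₁ y :=
    fun g => Iff.rfl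
  have hSn : (S₀.map G.subtype).Normal := by
    refine ⟨?_⟩
    rintro _ ⟨g, hg, rfl⟩ k
    have hg' := (hmem g).1 hg
    refine ⟨⟨k * g * k⁻¹, hGn.conj_mem g g.2 k⟩, (hmem _).2 ⟨?_, fun y hy => ?_⟩, rfl⟩
    · show π (c (k * (g : Γ) * k⁻¹)) = 0
      rw [hA.conj k g.2]
      exact hkinv k (A k).toContinuousLinearEquiv (c k) (fun y => heq k y) _ hg'.1
    · show H224.N.totF G h₁ ((k * (g : Γ) * k⁻¹) • y) = _
      have hy' := (hri y).1 hy
      obtain ⟨U, hU⟩ := hU' k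
      have h5 : Reg (n := n) p F (k⁻¹ • y) := (htw.reg_smul_iff hp _ _).2 hy'
      have h6 : Reg (n := n) p F ((g : Γ) • k⁻¹ • y) := (htw.reg_smul_iff hp _ _).2 h5
      rw [mul_smul, mul_smul, hU _ h6, hg'.2 _ ((hri _).2 h5), ← hU _ h5, smul_inv_smul]
  have hfinS : {a : Γ ⧸ S₀.map G.subtype | ∃ g : G, ((g : Γ) : Γ ⧸ S₀.map G.subtype) = a ∧
      π (c g) = 0}.Finite := by
    have h4 := Fin.fin_of (h := H224.N.totF G h₁) hq hpY hF hregY hS.equiv (fun g hg y hy => by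
      refine H224.N.totF_fix hp htw (fun k y hy => ?_) ((hri y).1 hy)
      refine hker ⟨k * g * k⁻¹, hGn.conj_mem g g.2 k⟩ ?_ y ((hri y).2 hy)
      show c (k * (g : Γ) * k⁻¹) = 0
      have h6 : c (g : Γ) = 0 := hg
      rw [hA.conj k g.2, h6, map_zero]) π hπ (fun y hy => by
        obtain ⟨f, h1, h2, -⟩ := hloc y hy
        exact ⟨f, h1, h2⟩)
    refine (h4.image fun a : G ⧸ S₀ => (((a.out : G) : Γ) : Γ ⧸ S₀.map G.subtype)).subset ?_
    rintro _ ⟨g, rfl, hg⟩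
    refine ⟨(g : G ⧸ S₀), ⟨g, rfl, hg⟩, ?_⟩
    show ((((g : G ⧸ S₀).out : G) : Γ) : Γ ⧸ S₀.map G.subtype) = _
    rw [QuotientGroup.eq]
    refine ⟨((g : G ⧸ S₀).out)⁻¹ * g, ?_, rfl⟩
    have h5 : (((g : G ⧸ S₀).out : G) : G ⧸ S₀) = (g : G ⧸ S₀) := QuotientGroup.out_eq' _
    exact QuotientGroup.eq.1 h5
  have hL : LFin Γ m p (H224.N.tot G (H224.N.fl π₀ pY v)) (fun y => π (F y)) := by
    refine H224.N.lfin_tw (G := G) (c := fun g : G => π (c g)) htw'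
      (π.continuous.comp (H221.holB_cont hp.cov hB)) (fun g y => ?_) hlatπ.disc (S₀.map G.subtype)
      ?_ ?_ hfinS
    · show π (F ((g : Γ) • y)) = π (F y) + π (c g)
      rw [heq, hA.one g g.2, ← map_add]
      rfl
    · rintro _ ⟨g, hg, rfl⟩ y
      show π (F ((g : Γ) • y)) = π (F y)
      rw [heq, hA.one g g.2, map_add, ((hmem g).1 hg).1, add_zero]
      rfl
    · intro g hg y e he ξ
      refine H224.N.tot_smul (p := p) (S := S₀.map G.subtype) (fun k hk z hz => ?_) hpi hg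
      obtain ⟨k, hk, rfl⟩ := hk
      refine H224.N.fl_smul hπ₀ hπp hv' (hpg k z) (fun e he ξ => ?_) (by rw [hz]; exact he) ξ
      exact hfix k (fun y hy => ((hmem k).1 hk).2 y hy) z e he ξ
  obtain ⟨y₀, e, b, γ, t', hN⟩ := hNFF
  refine noV_noeqv hDX E Γ p hp r (fun y => π (F y)) (fun y e he => ?_) htw' _ r m hr hm _ h3
    ⟨y₀, e, b, γ, t', hN⟩ hL
  obtain ⟨f, h4, h5⟩ := H221.holB_an hB' y he
  exact ⟨f, h5, h4⟩

/-- **MF-N** for the class `noVC`, from `ExK` and `T5K` -/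
theorem mfN_noV (hEx : ExK) (hT5 : T5K) : MFN noVC :=
  mfN_of (oneN_of hEx hT5 (H224.rat_of H136.Rat.lineStmt))
    (noRamN_of_noFE fun _ _ _ _ _ _ _ _ _ _ hD => noFE_noV hD)

end Vale.Agent.P284.H213.N
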