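import Vale.Agent.P284.H213.N.Mf
import Vale.Agent.P284.H224.N.MultF

/-!
# P284 (helper213), program N, module N4 (MF-N): no ramification (with the tools of helper224)
-/

open scoped Manifold ContDiff Topology ENNReal
open Filter Set Metric MeasureTheory

noncomputable section

namespace Vale.Agent.P284.H213.N

open Vale.Agent.P272.K Vale.Agent.P284.H573 Vale.Agent.P284.H894.G Vale.Agent.P284.H894.W
  Vale.Agent.P284.H494 Vale.Agent.P284.H998 Vale.Agent.P284.H672 Vale.Agent.P284.H224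
  Vale.Agent.P284.H279 Vale.Agent.P284.H213.Grp Vale.Agent.P284.H213.Q Vale.Agent.P284.H213.MF
  Vale.Agent.P284.H10 Vale.Agent.P284.H837 Vale.Agent.P284.H174 Vale.Agent.P284.H494.N

/-- **MF-N (II)** for the classes with `NoFE` -/
theorem noRamN_of_noFE {D : Cls}
    (hD : ∀ (n : ℕ) (X : Type) [TopologicalSpace X] [T2Space X] [CompactSpace X] [ConnectedSpace X]
      [ChartedSpace (Cm n) X] [IsManifold 𝓘(ℂ, Cm n) ω X]
      (w : Chart n X → Cm n → Matrix (Fin n) (Fin n) ℂ), IsKahler w → D n X → NoFE n X) :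
    NoRamN D := by
  intro n X _ _ _ _ _ _ hDX w hw E Γ _ _ _ _ p hp q F G A c hA hB heq hreg Ed hEd hne hcrit hdir
  have hGn := hA.normal
  have hGf := hA.fi
  have hfin : Fintype (Γ ⧸ G) := Fintype.ofFinite _
  obtain ⟨Y, _, _, _, _, _, _, pY, π, hπ, hπc, hpY, hπp⟩ := H885.exists_quo n X E Γ p hp G hGf
  obtain ⟨B, hB⟩ := hB
  have hlat := hA.lat
  have htw := twi_of heq
  have hF : Per pY (H885.pull π w) F (fun g : G => c g) := by
    refine ⟨⟨B, hπ.holB hπp hB⟩, fun g y => ?_, hlat.disc⟩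
    show F ((g : Γ) • y) = _
    rw [heq, hA.one g g.2]
    rfl
  have hregY : ∃ y, Reg (n := n) pY F y := by
    obtain ⟨y, hy⟩ := hreg
    exact ⟨y, (hπ.reg_iff hπp).2 hy⟩
  obtain ⟨m, k, v, hq, hm, hv, hinv, hloc, y₁, hy₁, γ₁, hγ₁, hi₁⟩ :=
    H224.N.multF n q Y (H885.pull π w) E G pY hpY F _ hF hregY (per (fun g : G => c g) hlat)
      (fun g => ⟨g, rfl⟩) (coco_of hlat) Ed hEd hne
      (fun y hy hr => hcrit y hy ((hπ.reg_iff hπp).1 hr)) hdir
  have hpg : ∀ (g : G) (y : E), pY ((g : Γ) • y) = pY y := fun g y =>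
    ((hpY.orb y ((g : Γ) • y)).2 ⟨g, rfl⟩).symm
  have hv' : H224.N.PForm n q m pY _ v := hv.pForm
  have h1 := hv'.fl hπ hpY.cov.continuous hπp
  have h2 : ∀ g ∈ G, ∀ y e, At e (p y) → ∀ ξ,
      H224.N.fl π pY v (g • y) e ξ = H224.N.fl π pY v y e ξ := fun g hg y e he ξ =>
    H224.N.fl_smul hπ hπp hv' (hpg ⟨g, hg⟩ y) (fun e he ξ => hinv ⟨g, hg⟩ y e he ξ) he ξ
  have h3 := H224.N.hform_tot (G := G) hp h1 fun g hg y e he ξ => by rw [h2 g hg y e he]
  obtain ⟨y₀, e, b, γ, t', hN⟩ := H224.N.nff_tot (G := G) (v := H224.N.fl π pY v) (m := m) hp hB htw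
    (R := {y | Reg (n := n) p F y}) (fun g y hy => (htw.reg_smul_iff hp g y).2 hy)
    (fun y hy => hy) (fun y hy => by
      obtain ⟨γ, hγ⟩ := hloc y ((hπ.reg_iff hπp).2 hy)
      exact ⟨γ, hγ.fl hπ hπp hv.change⟩)
    ⟨y₁, (hπ.reg_iff hπp).1 hy₁, γ₁, hγ₁.fl hπ hπp hv.change, hi₁⟩
  refine hD n X w hw hDX E Γ p hp G hGf q m hq hm _ _ h3 (fun g hg y e he ξ => ?_)
    ⟨y₀, e, b, γ, hN.nf⟩
  refine H224.N.tot_smul (p := p) (S := G) (fun k hk z hz => h2 k hk z e (by rw [hz]; exact he) ξ)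
    (fun g z => ((hp.orb z (g • z)).2 ⟨g, rfl⟩).symm) hg

end Vale.Agent.P284.H213.N
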