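import Vale.Agent.P284.H608.SA.Main
import Vale.Agent.P284.H15.G.NulG
import Vale.Agent.P284.H573.G.DKG

/-!
# P284 (helper213): theorem T3G for special compact Kähler manifolds, unconditional
-/

open scoped Manifold ContDiff Topology

noncomputable section

namespace Vale.Agent.P284.H213.N

open Vale.Agent.P284.H213.K Vale.Agent.P284.H837.N

/-- **CORE-N**, representations of `Γ`, for the class `noVC` -/
theorem coreTGN_noV : CoreTGN noVC :=
  coreTGN Vale.Agent.P284.H15.G.nulG Vale.Agent.P284.H573.GG.dkgStmt

/-- **T3G** for the class `noVC` -/
theorem t3G_noV : MainPiK noVC G.PNG := mainNGN Vale.Agent.P284.H608.SA.mfN coreTGN_noV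

/-- **T3G**: `X` a special compact Kähler manifold, `Q` a quotient of `π₁(X)`: either `Q` has a finite
dimensional real representation the image of which is not virtually solvable, or a subgroup of finite
index of `Q` maps onto `ℤ^m`, `m ≤ 2 n`, with a finitely generated kernel `K` which is finite or has an
infinite quotient `K / N` with property (T), `N` normal. -/
theorem t3G : MainPiK spC G.PNG := mainPiK_sp Vale.Agent.P284.H553.K8.spKN t3G_noV

end Vale.Agent.P284.H213.N
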