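import Vale.Agent.P284.H650.T.Fin
import Vale.Agent.P284.H988.T.LFOF

/-!
# P284 (helper213): theorem T3⁺ for special compact Kähler manifolds, unconditional
-/

open scoped Manifold ContDiff Topology

noncomputable section

namespace Vale.Agent.P284.H213.N

open Vale.Agent.P284.H213.K

/-- **T3⁺**: `X` a special compact Kähler manifold, `Q` a quotient of `π₁(X)`: either `Q` has a finite
dimensional real representation the image of which is not virtually solvable, or a subgroup of finite
index of `Q` maps onto `ℤ^m`, `m ≤ 2 n`, with a finitely generated kernel which has property (T). -/
theorem t3p : MainPiK spC G.PTG := Vale.Agent.P284.H650.T.t3p_of Vale.Agent.P284.H988.T.lfoStmt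

end Vale.Agent.P284.H213.N
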